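import Vale.Agent.P207.H226.Low
import Vale.Agent.P207.Q.H545.Step5

/-!
# P207, helper226: comparison of the entropies of two metrics of negative curvature

`K_{g₀} ≤ -a²`, `(-∫ Ric_{g₁}) B ≤ (n - 1) a²`: equality of the entropies of `g₁` only for locally
symmetric `g₁`; `-b² ≤ K_{g₀} ≤ -a²`: `h_L(g₁) ≤ (b/a) A₀₁ A₁₀ h_top(g₁)`.
-/

open scoped Manifold ContDiff ENNReal Topology Matrix
open Bundle MeasureTheory Set Filter

set_option maxSynthPendingDepth 3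
set_option linter.unusedSectionVars false

noncomputable section

namespace Vale.Agent.P207.H226

open Vale.Agent.P255 (RMetric)

section Km

open Vale.Agent.P207.Q (Fr)
open Vale.Agent.P207.Q.H130 (Km)
open Vale.Agent.P207.Q.H717 (secc)
open Vale.Agent.P207F (SecLE SecGE)

variable {m : ℕ} {M : Type} [TopologicalSpace M] [ChartedSpace (EV (m + 1)) M]
  [IsManifold 𝓘(ℝ, EV (m + 1)) ∞ M] {g : RMetric (EV (m + 1)) M}

theorem Km_ge_of {l : ℝ} (h : SecLE g (-l)) (f : Fr g) (x : Fin m → ℝ) :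
    l * (x ⬝ᵥ x) ≤ x ⬝ᵥ (Km g f *ᵥ x) := by
  rcases eq_or_ne x 0 with rfl | hx
  · simp
  · have h2 := h f.pt _ (mem_chart_target _ _) _ _ (H832.N4.li_sum f hx)
    rw [H832.N4.gram_sum] at h2
    rw [H832.N4.Km_quad]
    unfold secc
    linarith

theorem Km_le_of {l : ℝ} (h : SecGE g (-l)) (f : Fr g) (x : Fin m → ℝ) :
    x ⬝ᵥ (Km g f *ᵥ x) ≤ l * (x ⬝ᵥ x) := by
  rcases eq_or_ne x 0 with rfl | hx
  · simp
  · have h2 := h f.pt _ (mem_chart_target _ _) _ _ (H832.N4.li_sum f hx)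
    rw [H832.N4.gram_sum] at h2
    rw [H832.N4.Km_quad]
    unfold secc
    linarith

end Km

open Vale.Agent.P207F (SecLE SecGE ricUT)

section DimM

open Vale.Agent.P207.N3 Vale.Agent.P207.N4
open Vale.Agent.P207.N4.Q Vale.Agent.P207.Q Vale.Agent.P207.Q.H130

variable [Dim] {M : Type} [TopologicalSpace M] [ChartedSpace (EV (Dim.m + 1)) M]
  [IsManifold 𝓘(ℝ, EV (Dim.m + 1)) ∞ M]
  [CompactSpace M] [T2Space M] [ConnectedSpace M] [MeasurableSpace M] [BorelSpace M]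
  {g : RMetric (EV (Dim.m + 1)) M}

theorem nonempty_Fr : Nonempty (Fr g) := by
  obtain ⟨x⟩ : Nonempty M := inferInstance
  obtain ⟨f, -⟩ := Vale.Agent.P207.Q.H892.exists_frame g x
  exact ⟨f⟩

theorem dot_nonneg {k : ℕ} (x : Fin k → ℝ) : 0 ≤ x ⬝ᵥ x :=
  Finset.sum_nonneg fun i _ => mul_self_nonneg (x i)

theorem low_m (hN : NegCurvature g) {a : ℝ} (ha : 0 < a) (hK : SecLE g (-a ^ 2))
    {φ : ℝ → UT g → UT g} (hφ : IsGeoFlow g φ) {μ : Measure M}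
    {m : Measure (UT g)} (hμ : IsRiemVol g μ) (hm : IsLiouville g μ m) :
    ENNReal.ofReal (Dim.m * a) ≤ ksEntropy m (φ 1) := by
  have := nonempty_Fr (g := g)
  obtain ⟨lam₀, Lam₀, hl₀, hle₀, hb₀⟩ := H832.N4.exists_Km_neg (m := Dim.m) (g := g) hN
  obtain ⟨D, hD1, hD2⟩ := exists_MDat_of (lam := a) (Lam := max a Lam₀) ha (le_max_left _ _)
    (fun f x => ⟨Km_ge_of hK f x, (hb₀ f x).2.trans (mul_le_mul_of_nonneg_right
      (pow_le_pow_left₀ (hl₀.le.trans hle₀) (le_max_right _ _) 2) (dot_nonneg x))⟩) hφ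
  have h := le_ksEntropy hN ((horFlows g).hor 0) D
    (by rw [hD2]; exact lt_max_of_lt_left ha) hφ hμ hm
  rwa [hD1] at h

theorem up_m (hN : NegCurvature g) {b : ℝ} (hb : 0 < b) (hK : SecGE g (-b ^ 2))
    {φ : ℝ → UT g → UT g} (hφ : IsGeoFlow g φ) :
    topEntropy (φ 1) ≤ ENNReal.ofReal (Dim.m * b) := by
  have := nonempty_Fr (g := g)
  obtain ⟨lam₀, Lam₀, hl₀, hle₀, hb₀⟩ := H832.N4.exists_Km_neg (m := Dim.m) (g := g) hN
  obtain ⟨D, hD1, hD2⟩ := exists_MDat_of (lam := min lam₀ b) (Lam := b) (lt_min hl₀ hb)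
    (min_le_right _ _)
    (fun f x => ⟨(mul_le_mul_of_nonneg_right
      (pow_le_pow_left₀ (lt_min hl₀ hb).le (min_le_left _ _) 2) (dot_nonneg x)).trans (hb₀ f x).1,
      Km_le_of hK f x⟩) hφ
  have h := topEntropy_le hN ((horFlows g).hor 0) D (by rw [hD2]; exact hb) hφ
  rwa [hD2] at h

theorem sq_m (hN : NegCurvature g) {φ : ℝ → UT g → UT g} (hφ : IsGeoFlow g φ) {μ : Measure M}
    {m : Measure (UT g)} (hμ : IsRiemVol g μ) (hm : IsLiouville g μ m) :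
    (ksEntropy m (φ 1)).toReal ^ 2 ≤ Dim.m * -(∫ p, ricUT g p ∂m) := by
  have := nonempty_Fr (g := g)
  obtain ⟨D⟩ := exists_MDat hN hφ
  exact sq_ksEntropy_le hN ((horFlows g).hor 0) D hφ hμ hm

theorem locSym_m {l : ℝ} (hK : SecLE g (-l)) {μ : Measure M}
    {m : Measure (UT g)} (hμ : IsRiemVol g μ) (hm : IsLiouville g μ m)
    (h : -(∫ p, ricUT g p ∂m) ≤ Dim.m * l) : LocSymmetric g := by
  have := hm.1
  have := compactSpace_UT g
  obtain ⟨κ, hκ, hκf⟩ := exists_ric (g := g)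
  have hge : ∀ (f : Fr g) (i : Fin Dim.m), l ≤ Km g f i i := fun f i => by
    have h1 := Km_ge_of hK f (Pi.single i 1)
    rw [diag_eq] at h1
    simpa using h1
  have hsum : ∀ f : Fr g, Dim.m * l ≤ (Km g f).trace := fun f => by
    have h2 := Finset.card_nsmul_le_sum Finset.univ (fun i => Km g f i i) l
      (fun i _ => hge f i)
    simpa [Matrix.trace] using h2
  have h7 : ∫ p, κ p ∂m = -∫ p, ricUT g p ∂m := by
    have h8 : ∫ p, κ p ∂m = ∫ p : UT g, -(ricUT g p) ∂m :=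
      integral_congr_ae (Eventually.of_forall hκ)
    exact h8.trans (integral_neg (fun p : UT g => ricUT g p))
  have hnn : ∀ p : UT g, 0 ≤ κ p - Dim.m * l := fun p => by
    obtain ⟨f, rfl⟩ := Vale.Agent.P207.Q.H892.exists_frame_ut p
    rw [hκf]
    linarith [hsum f]
  have hint : Integrable (fun p => κ p) m :=
    Integrable.of_bound (C := ‖κ‖) κ.continuous.measurable.aestronglyMeasurable
      (Eventually.of_forall fun x => κ.norm_coe_le_norm x)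
  have hz : ∫ p, (κ p - Dim.m * l) ∂m = 0 := by
    refine le_antisymm ?_ (integral_nonneg hnn)
    rw [integral_sub hint (integrable_const _), h7, integral_const]
    simp
    linarith
  have h9 := hm.eq_zero (Nat.le_add_left 1 Dim.m) hμ (a := fun p => κ p - Dim.m * l)
    (κ.continuous.sub continuous_const) hnn hz
  have hm0 : 0 < Dim.m := lt_of_lt_of_le two_pos Dim.two_le
  refine Vale.Agent.P207.Q.H545.locSymmetric_of_frames (i₀ := 0)
    (i₁ := (⟨0, hm0⟩ : Fin Dim.m).succ) (Fin.succ_ne_zero _).symm (κ := -l) fun f => ?_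
  have h10 : κ (f.ut 0) - Dim.m * l = 0 := h9 (f.ut 0)
  rw [hκf] at h10
  have h11 : Km g f ⟨0, hm0⟩ ⟨0, hm0⟩ = l := by
    refine le_antisymm ?_ (hge f _)
    have h12 : ∑ i, (Km g f i i - l) = 0 := by
      rw [Finset.sum_sub_distrib]
      simp only [Finset.sum_const, Finset.card_univ, Fintype.card_fin, nsmul_eq_mul]
      exact h10
    have h13 := (Finset.sum_eq_zero_iff_of_nonneg fun i _ => sub_nonneg.2 (hge f i)).1 h12
      ⟨0, hm0⟩ (Finset.mem_univ _)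
    linarith
  have h14 : Km g f ⟨0, hm0⟩ ⟨0, hm0⟩ =
    -Vale.Agent.P207.Q.H545.Rf g f (⟨0, hm0⟩ : Fin Dim.m).succ 0 0 (⟨0, hm0⟩ : Fin Dim.m).succ := rfl
  linarith

end DimM

variable {n : ℕ} {M : Type} [TopologicalSpace M] [ChartedSpace (EV n) M]
  [IsManifold 𝓘(ℝ, EV n) ∞ M] [CompactSpace M] [T2Space M] [ConnectedSpace M]
  [MeasurableSpace M] [BorelSpace M]

section One

variable {g : RMetric (EV n) M}

/-- `K ≤ -a²` implies `(n - 1) a ≤ h_L` -/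
theorem low (hn : 3 ≤ n) (hN : NegCurvature g) {a : ℝ} (ha : 0 < a) (hK : SecLE g (-a ^ 2))
    {φ : ℝ → UT g → UT g} (hφ : IsGeoFlow g φ) {μ : Measure M}
    {m : Measure (UT g)} (hμ : IsRiemVol g μ) (hm : IsLiouville g μ m) :
    ENNReal.ofReal ((n - 1) * a) ≤ ksEntropy m (φ 1) := by
  obtain ⟨k, rfl⟩ : ∃ k, n = k + 1 := ⟨n - 1, by omega⟩
  have h2 : 2 ≤ k := by omega
  have h := @low_m (N4.Dim.mk k h2) M _ _ _ _ _ _ _ _ g hN a ha hK φ hφ μ m hμ hm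
  have e : ((k + 1 : ℕ) : ℝ) - 1 = (k : ℝ) := by push_cast; ring
  rw [e]
  exact h

/-- `K ≥ -b²` implies `h_top ≤ (n - 1) b` -/
theorem up (hn : 3 ≤ n) (hN : NegCurvature g) {b : ℝ} (hb : 0 < b) (hK : SecGE g (-b ^ 2))
    {φ : ℝ → UT g → UT g} (hφ : IsGeoFlow g φ) :
    topEntropy (φ 1) ≤ ENNReal.ofReal ((n - 1) * b) := by
  obtain ⟨k, rfl⟩ : ∃ k, n = k + 1 := ⟨n - 1, by omega⟩
  have h2 : 2 ≤ k := by omega
  have h := @up_m (N4.Dim.mk k h2) M _ _ _ _ _ _ _ _ g hN b hb hK φ hφ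
  have e : ((k + 1 : ℕ) : ℝ) - 1 = (k : ℝ) := by push_cast; ring
  rw [e]
  exact h

/-- `h_L² ≤ -(n - 1) ∫ Ric` -/
theorem sq_le (hn : 3 ≤ n) (hN : NegCurvature g) {φ : ℝ → UT g → UT g} (hφ : IsGeoFlow g φ)
    {μ : Measure M} {m : Measure (UT g)} (hμ : IsRiemVol g μ) (hm : IsLiouville g μ m) :
    (ksEntropy m (φ 1)).toReal ^ 2 ≤ (n - 1) * -(∫ p, ricUT g p ∂m) := by
  obtain ⟨k, rfl⟩ : ∃ k, n = k + 1 := ⟨n - 1, by omega⟩
  have h2 : 2 ≤ k := by omega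
  have h := @sq_m (N4.Dim.mk k h2) M _ _ _ _ _ _ _ _ g hN φ hφ μ m hμ hm
  have e : ((k + 1 : ℕ) : ℝ) - 1 = (k : ℝ) := by push_cast; ring
  rw [e]
  exact h

theorem locSym (hn : 3 ≤ n) {l : ℝ} (hK : SecLE g (-l)) {μ : Measure M}
    {m : Measure (UT g)} (hμ : IsRiemVol g μ) (hm : IsLiouville g μ m)
    (h : -(∫ p, ricUT g p ∂m) ≤ (n - 1) * l) : LocSymmetric g := by
  obtain ⟨k, rfl⟩ : ∃ k, n = k + 1 := ⟨n - 1, by omega⟩
  have h2 : 2 ≤ k := by omega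
  have e : ((k + 1 : ℕ) : ℝ) - 1 = (k : ℝ) := by push_cast; ring
  rw [e] at h
  exact @locSym_m (N4.Dim.mk k h2) M _ _ _ _ _ _ _ _ g l hK μ m hμ hm h

end One

end Vale.Agent.P207.H226
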