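import Vale.Agent.P207.BlkL4

/-!
# P207: mean lengths in a conformal class

For `g' = e^{2u} g` with `u` continuous the volume of `g'` is `e^{nu} dVol_g`, the averages of the
lengths are `A(g,g') = ∫ e^u / Vol` and `A(g',g) = ∫ e^{(n-1)u} / ∫ e^{nu}`, and
`A(g,g') A(g',g) < 1` unless `u` is constant.
-/

open scoped Manifold ContDiff ENNReal Topology
open Bundle MeasureTheory Set Filter

set_option maxSynthPendingDepth 3
set_option linter.unusedSectionVars false

noncomputable section

namespace Vale.Agent.P207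

open Vale.Agent.P255 (RMetric coefIn Gam Riem IsGeo Metric Npc ExpSys toMetric geo expg cc trans
  coefL)

namespace Conf

variable {n : ℕ} {M : Type} [TopologicalSpace M] [ChartedSpace (EV n) M]
  [IsManifold 𝓘(ℝ, EV n) ∞ M]

/-- `g' = e^{2u} g` -/
def IsConf (g g' : RMetric (EV n) M) (u : M → ℝ) : Prop :=
  ∀ (x : M) (v w : TangentSpace 𝓘(ℝ, EV n) x),
    g'.inner x v w = Real.exp (2 * u x) * g.inner x v w

/-! ### the strict Chebyshev inequality -/

theorem pow_sub_mul_pos {a b : ℝ} (ha : 0 < a) (hb : 0 < b) (hab : a ≠ b) {k : ℕ} (hk : 1 ≤ k) :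
    0 < (a - b) * (a ^ k - b ^ k) := by
  rcases lt_or_gt_of_ne hab with h | h
  · exact mul_pos_of_neg_of_neg (sub_neg.2 h)
      (sub_neg.2 (pow_lt_pow_left₀ h ha.le (by omega)))
  · exact mul_pos (sub_pos.2 h) (sub_pos.2 (pow_lt_pow_left₀ h hb.le (by omega)))

theorem pow_sub_mul_nonneg {a b : ℝ} (ha : 0 < a) (hb : 0 < b) (k : ℕ) :
    0 ≤ (a - b) * (a ^ k - b ^ k) := by
  rcases eq_or_ne a b with rfl | h
  · simp
  rcases Nat.eq_zero_or_pos k with rfl | hk
  · simp
  · exact (pow_sub_mul_pos ha hb h hk).le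

/-- strict Chebyshev inequality for powers of one continuous function -/
theorem chebyshev {X : Type} [TopologicalSpace X] [CompactSpace X] [MeasurableSpace X]
    [BorelSpace X] {μ : Measure X} [IsFiniteMeasure μ] [μ.IsOpenPosMeasure] {f : X → ℝ}
    (hf : Continuous f) (hp : ∀ x, 0 < f x) (hne : ∃ x y, f x ≠ f y) {k : ℕ} (hk : 1 ≤ k) :
    (∫ x, f x ∂μ) * (∫ x, f x ^ k ∂μ) < μ.real univ * ∫ x, f x ^ (k + 1) ∂μ := by
  have hi : ∀ h : X → ℝ, Continuous h → Integrable h μ := fun h hh =>
    hh.integrable_of_hasCompactSupport (HasCompactSupport.of_compactSpace _)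
  obtain ⟨x₀, y₀, hxy⟩ := hne
  have hpos : 0 < μ.real univ :=
    ENNReal.toReal_pos ((isOpen_univ.measure_pos μ ⟨x₀, mem_univ _⟩).ne') (measure_ne_top μ _)
  have hfi : 0 < ∫ x, f x ∂μ := by
    rw [integral_pos_iff_support_of_nonneg (fun x => (hp x).le) (hi f hf)]
    have : Function.support f = univ := by
      ext p; simp [(hp p).ne']
    rw [this]
    exact isOpen_univ.measure_pos μ ⟨x₀, mem_univ _⟩
  set s : ℝ := (∫ x, f x ∂μ) / μ.real univ with hs
  have hs0 : 0 < s := div_pos hfi hpos
  have hsV : s * μ.real univ = ∫ x, f x ∂μ := div_mul_cancel₀ _ hpos.ne'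
  -- the function which is nonnegative and somewhere positive
  set h : X → ℝ := fun x => (f x - s) * (f x ^ k - s ^ k) with hh
  have hc : Continuous h := (hf.sub continuous_const).mul ((hf.pow k).sub continuous_const)
  have h0 : ∀ x, 0 ≤ h x := fun x => pow_sub_mul_nonneg (hp x) hs0 k
  have h1 : ∃ x, 0 < h x := by
    by_cases hx : f x₀ = s
    · refine ⟨y₀, pow_sub_mul_pos (hp _) hs0 ?_ hk⟩
      intro h2
      exact hxy (hx.trans h2.symm)
    · exact ⟨x₀, pow_sub_mul_pos (hp _) hs0 hx hk⟩
  have h2 : 0 < ∫ x, h x ∂μ := by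
    rw [integral_pos_iff_support_of_nonneg h0 (hi h hc)]
    obtain ⟨x, hx⟩ := h1
    exact (hc.isOpen_support).measure_pos μ ⟨x, hx.ne'⟩
  have e : ∀ x, h x = f x ^ (k + 1) - s * f x ^ k - s ^ k * f x + s ^ (k + 1) := by
    intro x
    simp only [hh]
    ring
  have i1 : Integrable (fun x => f x ^ (k + 1)) μ := hi _ (hf.pow (k + 1))
  have i2 : Integrable (fun x => s * f x ^ k) μ := hi _ (continuous_const.mul (hf.pow k))
  have i3 : Integrable (fun x => s ^ k * f x) μ := hi _ (continuous_const.mul hf)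
  have i4 : Integrable (fun x => f x ^ (k + 1) - s * f x ^ k) μ := i1.sub i2
  have i5 : Integrable (fun x => f x ^ (k + 1) - s * f x ^ k - s ^ k * f x) μ := i4.sub i3
  have h3 : ∫ x, h x ∂μ = (∫ x, f x ^ (k + 1) ∂μ) - s * (∫ x, f x ^ k ∂μ)
      - s ^ k * (∫ x, f x ∂μ) + s ^ (k + 1) * μ.real univ := by
    simp only [e]
    rw [integral_add i5 (integrable_const _), integral_sub i4 i3,
      integral_sub i1 i2, integral_const_mul, integral_const_mul]
    simp only [integral_const, smul_eq_mul]
    ring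
  have h4 : s ^ (k + 1) * μ.real univ = s ^ k * ∫ x, f x ∂μ := by
    rw [← hsV]; ring
  rw [h3, h4] at h2
  have h5 : s * (∫ x, f x ^ k ∂μ) < ∫ x, f x ^ (k + 1) ∂μ := by linarith
  calc (∫ x, f x ∂μ) * (∫ x, f x ^ k ∂μ) = μ.real univ * (s * ∫ x, f x ^ k ∂μ) := by
        rw [← hsV]; ring
    _ < μ.real univ * ∫ x, f x ^ (k + 1) ∂μ := mul_lt_mul_of_pos_left h5 hpos

/-! ### densities -/

theorem gramE_smul (c : ℝ) (B : EV n →L[ℝ] EV n →L[ℝ] ℝ) : gramE (c • B) = c • gramE B := by
  ext i j
  simp [gramE]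

theorem coefL_conf {g g' : RMetric (EV n) M} {u : M → ℝ} (h : IsConf g g' u) (a : M) {y : EV n}
    (hy : y ∈ (chartAt (EV n) a).target) :
    coefL g' a y = Real.exp (2 * u ((chartAt (EV n) a).symm y)) • coefL g a y := by
  have hx : (chartAt (EV n) a).symm y ∈ (chartAt (EV n) a).source :=
    (chartAt (EV n) a).map_target hy
  have e := (chartAt (EV n) a).right_inv hy
  ext v w
  have h1 := innerB_Dc g a hx v w
  have h2 := innerB_Dc g' a hx v w
  rw [e] at h1 h2
  rw [← h2, smul_apply, smul_apply, smul_eq_mul, ← h1]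
  exact h _ _ _

theorem dens_conf {g g' : RMetric (EV n) M} {u : M → ℝ} (h : IsConf g g' u) (a : M) {y : EV n}
    (hy : y ∈ (chartAt (EV n) a).target) :
    dens g' a y = Real.exp (n * u ((chartAt (EV n) a).symm y)) * dens g a y := by
  unfold dens
  rw [coefL_conf h a hy, gramE_smul, Matrix.det_smul, Fintype.card_fin, ← Real.exp_nat_mul,
    Real.sqrt_mul (Real.exp_pos _).le]
  congr 1
  rw [show (n : ℝ) * (2 * u ((chartAt (EV n) a).symm y))
      = n * u ((chartAt (EV n) a).symm y) + n * u ((chartAt (EV n) a).symm y) by ring,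
    Real.exp_add, Real.sqrt_mul_self (Real.exp_pos _).le]

variable [CompactSpace M] [T2Space M] [MeasurableSpace M] [BorelSpace M]

/-- the volume of a conformal metric -/
theorem isRiemVol_conf {g g' : RMetric (EV n) M} {u : M → ℝ} (hu : Continuous u)
    (h : IsConf g g' u) {μ : Measure M} (hμ : IsRiemVol g μ) :
    IsRiemVol g' (μ.withDensity fun x => ENNReal.ofReal (Real.exp (n * u x))) := by
  rw [isRiemVol_iff]
  intro a s hs ha
  have hf : Measurable fun x => ENNReal.ofReal (Real.exp (n * u x)) :=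
    (Real.continuous_exp.comp (continuous_const.mul hu)).measurable.ennreal_ofReal
  have hI := measurableSet_chart_image a hs ha
  have hT : chartAt (EV n) a '' s ⊆ (chartAt (EV n) a).target := by
    rintro _ ⟨x, hx, rfl⟩
    exact (chartAt (EV n) a).map_source (ha hx)
  have h1 := hμ.lintegral_source a (hf.indicator hs)
  rw [lintegral_indicator hs, Measure.restrict_restrict hs, inter_eq_self_of_subset_left ha] at h1
  rw [withDensity_apply _ hs, h1]
  have h2 : ∀ y ∈ (chartAt (EV n) a).target,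
      s.indicator (fun x => ENNReal.ofReal (Real.exp (n * u x))) ((chartAt (EV n) a).symm y)
        * ENNReal.ofReal (dens g a y) =
      (chartAt (EV n) a '' s).indicator (fun y => ENNReal.ofReal (dens g' a y)) y := by
    intro y hy
    have h3 : y ∈ chartAt (EV n) a '' s ↔ (chartAt (EV n) a).symm y ∈ s := by
      constructor
      · rintro ⟨x, hx, rfl⟩
        rwa [(chartAt (EV n) a).left_inv (ha hx)]
      · intro h4
        exact ⟨_, h4, (chartAt (EV n) a).right_inv hy⟩
    by_cases h4 : (chartAt (EV n) a).symm y ∈ s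
    · rw [indicator_of_mem h4, indicator_of_mem (h3.2 h4), dens_conf h a hy,
        ENNReal.ofReal_mul (Real.exp_pos _).le]
    · rw [indicator_of_notMem h4, indicator_of_notMem (fun h5 => h4 (h3.1 h5)), zero_mul]
  rw [setLIntegral_congr_fun (chartAt (EV n) a).open_target.measurableSet h2,
    lintegral_indicator hI, Measure.restrict_restrict hI, inter_eq_self_of_subset_left hT]

/-! ### the averages of the lengths -/

omit [CompactSpace M] [T2Space M] [MeasurableSpace M] [BorelSpace M] in
theorem sphAvg_comp (hn : 1 ≤ n) (g : RMetric (EV n) M) (f : M → ℝ) (x : M) :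
    sphAvg g (fun p => f p.pt) x = f x := by
  rw [sphAvg_eq]
  unfold avgB
  obtain ⟨c, hc⟩ := innerB_LB g x
  have h1 : ∫ v in ballB (innerB g x), radial g (fun p => f p.pt) x v =
      ∫ _ in ballB (innerB g x), f x := by
    refine integral_congr_ae (ae_restrict_of_ae ?_)
    filter_upwards [ae_ne_zero hn] with v hv
    exact dif_neg hv
  rw [h1]
  simp only [integral_const, smul_eq_mul, measureReal_restrict_apply MeasurableSet.univ,
    univ_inter]
  rw [mul_comm]
  exact mul_div_cancel_right₀ _ hc.volume_real_pos.ne'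

omit [CompactSpace M] [T2Space M] [MeasurableSpace M] [BorelSpace M] in
theorem nrm_conf {g g' : RMetric (EV n) M} {u : M → ℝ} (h : IsConf g g' u) (p : UT g) :
    nrm g g' p = Real.exp (u p.pt) := by
  unfold nrm
  rw [h, show g.inner p.pt p.vec p.vec = 1 from p.2, mul_one,
    show 2 * u p.pt = u p.pt + u p.pt by ring, Real.exp_add,
    Real.sqrt_mul_self (Real.exp_pos _).le]

omit [CompactSpace M] [T2Space M] [MeasurableSpace M] [BorelSpace M] in
theorem IsConf.symm {g g' : RMetric (EV n) M} {u : M → ℝ} (h : IsConf g g' u) :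
    IsConf g' g (fun x => -u x) := by
  intro x v w
  rw [h x v w, ← mul_assoc, ← Real.exp_add]
  simp

theorem integral_nrm {g g' : RMetric (EV n) M} (hn : 1 ≤ n) {u : M → ℝ} (hu : Continuous u)
    (h : IsConf g g' u) {μ : Measure M} {m : Measure (UT g)} (hm : IsLiouville g μ m) :
    ∫ p, nrm g g' p ∂m = (∫ x, Real.exp (u x) ∂μ) / μ.real univ := by
  have hc : Continuous fun p : UT g => Real.exp (u p.pt) :=
    Real.continuous_exp.comp (hu.comp (continuous_pt g))
  simp only [nrm_conf h]
  rw [hm.2 _ hc]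
  congr 1
  refine integral_congr_ae (Eventually.of_forall fun x => ?_)
  exact sphAvg_comp hn g (fun x => Real.exp (u x)) x

theorem integral_conf {g g' : RMetric (EV n) M} {u : M → ℝ} (hu : Continuous u)
    (h : IsConf g g' u) {μ μ' : Measure M} (hμ : IsRiemVol g μ) (hμ' : IsRiemVol g' μ')
    (f : M → ℝ) : ∫ x, f x ∂μ' = ∫ x, Real.exp (n * u x) * f x ∂μ := by
  have hf : Measurable fun x => ENNReal.ofReal (Real.exp (n * u x)) :=
    (Real.continuous_exp.comp (continuous_const.mul hu)).measurable.ennreal_ofReal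
  rw [hμ'.unique (isRiemVol_conf hu h hμ), integral_withDensity_eq_integral_toReal_smul hf
      (Eventually.of_forall fun _ => ENNReal.ofReal_lt_top)]
  refine integral_congr_ae (Eventually.of_forall fun x => ?_)
  simp only [smul_eq_mul, ENNReal.toReal_ofReal (Real.exp_pos _).le]

theorem integral_nrm' {g g' : RMetric (EV n) M} (hn : 1 ≤ n) {u : M → ℝ} (hu : Continuous u)
    (h : IsConf g g' u) {μ μ' : Measure M} (hμ : IsRiemVol g μ) (hμ' : IsRiemVol g' μ')
    {m' : Measure (UT g')} (hm' : IsLiouville g' μ' m') :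
    ∫ p, nrm g' g p ∂m' =
      (∫ x, Real.exp ((n - 1) * u x) ∂μ) / ∫ x, Real.exp (n * u x) ∂μ := by
  have hu' : Continuous fun x => -u x := hu.neg
  rw [integral_nrm hn hu' h.symm hm', integral_conf hu h hμ hμ' (fun x => Real.exp (-u x))]
  have h1 : μ'.real univ = ∫ x, Real.exp (n * u x) ∂μ := by
    have h2 := integral_conf hu h hμ hμ' (fun _ => (1 : ℝ))
    simp only [integral_const, smul_eq_mul, mul_one] at h2
    exact h2
  rw [h1]
  congr 1
  refine integral_congr_ae (Eventually.of_forall fun x => ?_)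
  simp only
  rw [← Real.exp_add]
  congr 1
  ring

/-- `A(g,g') A(g',g) < 1` for a conformal metric which is not homothetic -/
theorem mul_lt_one {g g' : RMetric (EV n) M} (hn : 2 ≤ n) {u : M → ℝ} (hu : Continuous u)
    (hne : ∃ x y, u x ≠ u y) (h : IsConf g g' u) {μ μ' : Measure M} (hμ : IsRiemVol g μ)
    (hμ' : IsRiemVol g' μ') {m : Measure (UT g)} (hm : IsLiouville g μ m)
    {m' : Measure (UT g')} (hm' : IsLiouville g' μ' m') :
    (∫ p, nrm g g' p ∂m) * (∫ p, nrm g' g p ∂m') < 1 := by
  have hn1 : 1 ≤ n := by omega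
  have := hμ.isFiniteMeasure
  have := hμ.isOpenPosMeasure
  rw [integral_nrm hn1 hu h hm, integral_nrm' hn1 hu h hμ hμ' hm']
  obtain ⟨x₀, y₀, hxy⟩ := hne
  have hc : Continuous fun x => Real.exp (u x) := Real.continuous_exp.comp hu
  have hch := chebyshev (μ := μ) hc (fun x => Real.exp_pos _)
    ⟨x₀, y₀, fun h1 => hxy (Real.exp_injective h1)⟩ (k := n - 1) (by omega)
  have e1 : ∀ x, Real.exp (u x) ^ (n - 1) = Real.exp ((n - 1) * u x) := by
    intro x
    rw [← Real.exp_nat_mul, Nat.cast_sub hn1, Nat.cast_one]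
  have e2 : ∀ x, Real.exp (u x) ^ (n - 1 + 1) = Real.exp (n * u x) := by
    intro x
    rw [Nat.sub_add_cancel hn1, ← Real.exp_nat_mul]
  simp only [e1, e2] at hch
  have hpos : 0 < μ.real univ :=
    ENNReal.toReal_pos ((isOpen_univ.measure_pos μ ⟨x₀, mem_univ _⟩).ne') (measure_ne_top μ _)
  have hpos' : 0 < ∫ x, Real.exp (n * u x) ∂μ := by
    have hcn : Continuous fun x => Real.exp (n * u x) :=
      Real.continuous_exp.comp (continuous_const.mul hu)
    rw [integral_pos_iff_support_of_nonneg (fun x => (Real.exp_pos _).le)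
      (hcn.integrable_of_hasCompactSupport (HasCompactSupport.of_compactSpace _))]
    have : Function.support (fun x => Real.exp (n * u x)) = univ := by
      ext p; simp [(Real.exp_pos _).ne']
    rw [this]
    exact isOpen_univ.measure_pos μ ⟨x₀, mem_univ _⟩
  rw [div_mul_div_comm, div_lt_one (mul_pos hpos hpos')]
  exact hch

end Conf

end Vale.Agent.P207
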