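import Vale.Agent.P207.H226.Comp
import Vale.Agent.P207.FDefs3

/-!
# P207, helper226: constant curvature from the frames
-/

open scoped Manifold ContDiff ENNReal Topology Matrix
open Bundle MeasureTheory Set Filter

set_option maxSynthPendingDepth 3
set_option linter.unusedSectionVars false

noncomputable section

namespace Vale.Agent.P207.H226

open Vale.Agent.P255 (RMetric coefIn Gam Riem IsGeo Metric trans coefL)

section Frames

open Vale.Agent.P207.Q Vale.Agent.P207.Q.H892 Vale.Agent.P207.Q.H545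

variable {n : ℕ} {M : Type} [TopologicalSpace M] [ChartedSpace (EV n) M]
  [IsManifold 𝓘(ℝ, EV n) ∞ M] {g : RMetric (EV n) M}

/-- constant curvature from one sectional curvature of all frames -/
theorem const_of_frames {i₀ i₁ : Fin n} (hi : i₀ ≠ i₁) {κ : ℝ}
    (h : ∀ f : Fr g, Rf g f i₁ i₀ i₀ i₁ = κ) (a : M) {u : EV n}
    (hu : u ∈ (chartAt (EV n) a).target) (v w : EV n) :
    coefIn g a u (Riem (coefIn g a) u w v v) w =
      κ * (coefIn g a u v v * coefIn g a u w w - coefIn g a u v w ^ 2) := by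
  have key := CS.sec_of_unit ((mt g).isMetricOn a) hu (κ := κ) (fun v w hv hvw hw => ?_) v w
  · rw [← D1.riem_mt g a hu] at key
    exact key
  have hx : (chartAt (EV n) a).symm u ∈ (chartAt (EV n) a).source :=
    (chartAt (EV n) a).map_target hu
  set x := (chartAt (EV n) a).symm u with hxdef
  have hux : chartAt (EV n) a x = u := (chartAt (EV n) a).right_inv hu
  set T : EV n → EV n := fun v => fderiv ℝ (trans (EV n) a x) u v with hT
  have hin : ∀ v w, innerB g x (T v) (T w) = coefIn g a u v w := by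
    intro v w
    have h1 := inner_chFs (ι := Fin 2) g a (y := (u, ![v, w])) hu 0 1
    exact h1
  obtain ⟨f, hf, hf0, hf1⟩ := exists_frame_pair (g := g) hi x (v := T v) (w := T w)
    (by rw [hin]; exact hv) (by rw [hin]; exact hvw) (by rw [hin]; exact hw)
  have hfs : f.pt ∈ (chartAt (EV n) a).source := by rw [hf]; exact hx
  have h2 := Rf_eq f i₁ i₀ i₀ i₁ hfs
  rw [h f] at h2
  have hc1 : (chF a f.1).1 = u := by
    change chartAt (EV n) a f.pt = u
    rw [hf]; exact hux
  have hc : ∀ i v, f.e i = T v → (chF a f.1).2 i = v := by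
    intro i v hv
    change fderiv ℝ (trans (EV n) f.pt a) (chartAt (EV n) f.pt f.pt) (f.e i) = v
    rw [hv, hf, hT]
    have := fderiv_trans_forth a hx v
    rw [hux] at this
    exact this
  rw [hc1, hc i₀ v hf0, hc i₁ w hf1] at h2
  exact h2.symm

/-- a metric of constant curvature is locally symmetric -/
theorem locSymmetric_of_constCurvature {κ : ℝ} (h : P207F.ConstCurvature g κ) :
    LocSymmetric g := by
  refine locSymmetric_of_const (κ := -κ) fun a u hu v w => ?_
  rw [h a u hu w v, P207F.gramDet]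
  have hs : coefIn g a u w v = coefIn g a u v w := g.symm _ _ _
  rw [hs]
  ring

end Frames

section DimM

open Vale.Agent.P207.N3 Vale.Agent.P207.N4
open Vale.Agent.P207.N4.Q Vale.Agent.P207.Q Vale.Agent.P207.Q.H130
open Vale.Agent.P207F (SecLE SecGE ricUT)

variable [Dim] {M : Type} [TopologicalSpace M] [ChartedSpace (EV (Dim.m + 1)) M]
  [IsManifold 𝓘(ℝ, EV (Dim.m + 1)) ∞ M]
  [CompactSpace M] [T2Space M] [ConnectedSpace M] [MeasurableSpace M] [BorelSpace M]
  {g : RMetric (EV (Dim.m + 1)) M}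

theorem const_m {l : ℝ} (hK : SecLE g (-l)) {μ : Measure M}
    {m : Measure (UT g)} (hμ : IsRiemVol g μ) (hm : IsLiouville g μ m)
    (h : -(∫ p, ricUT g p ∂m) ≤ Dim.m * l) : P207F.ConstCurvature g l := by
  have := hm.1
  have := compactSpace_UT g
  obtain ⟨κ, hκ, hκf⟩ := exists_ric (g := g)
  have hge : ∀ (f : Fr g) (i : Fin Dim.m), l ≤ Km g f i i := fun f i => by
    have h1 := Km_ge_of hK f (Pi.single i 1)
    rw [diag_eq] at h1
    simpa using h1
  have hsum : ∀ f : Fr g, Dim.m * l ≤ (Km g f).trace := fun f => by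
    have h2 := Finset.card_nsmul_le_sum Finset.univ (fun i => Km g f i i) l
      (fun i _ => hge f i)
    simpa [Matrix.trace] using h2
  have h7 : ∫ p, κ p ∂m = -∫ p, ricUT g p ∂m := by
    have h8 : ∫ p, κ p ∂m = ∫ p : UT g, -(ricUT g p) ∂m :=
      integral_congr_ae (Eventually.of_forall hκ)
    exact h8.trans (integral_neg (fun p : UT g => ricUT g p))
  have hnn : ∀ p : UT g, 0 ≤ κ p - Dim.m * l := fun p => by
    obtain ⟨f, rfl⟩ := Vale.Agent.P207.Q.H892.exists_frame_ut p
    rw [hκf]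
    linarith [hsum f]
  have hint : Integrable (fun p => κ p) m :=
    Integrable.of_bound (C := ‖κ‖) κ.continuous.measurable.aestronglyMeasurable
      (Eventually.of_forall fun x => κ.norm_coe_le_norm x)
  have hz : ∫ p, (κ p - Dim.m * l) ∂m = 0 := by
    refine le_antisymm ?_ (integral_nonneg hnn)
    rw [integral_sub hint (integrable_const _), h7, integral_const]
    simp
    linarith
  have h9 := hm.eq_zero (Nat.le_add_left 1 Dim.m) hμ (a := fun p => κ p - Dim.m * l)
    (κ.continuous.sub continuous_const) hnn hz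
  have hm0 : 0 < Dim.m := lt_of_lt_of_le two_pos Dim.two_le
  have hR : ∀ f : Fr g, Vale.Agent.P207.Q.H545.Rf g f (⟨0, hm0⟩ : Fin Dim.m).succ 0 0
      (⟨0, hm0⟩ : Fin Dim.m).succ = -l := fun f => by
    have h10 : κ (f.ut 0) - Dim.m * l = 0 := h9 (f.ut 0)
    rw [hκf] at h10
    have h11 : Km g f ⟨0, hm0⟩ ⟨0, hm0⟩ = l := by
      refine le_antisymm ?_ (hge f _)
      have h12 : ∑ i, (Km g f i i - l) = 0 := by
        rw [Finset.sum_sub_distrib]
        simp only [Finset.sum_const, Finset.card_univ, Fintype.card_fin, nsmul_eq_mul]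
        exact h10
      have h13 := (Finset.sum_eq_zero_iff_of_nonneg fun i _ => sub_nonneg.2 (hge f i)).1 h12
        ⟨0, hm0⟩ (Finset.mem_univ _)
      linarith
    have h14 : Km g f ⟨0, hm0⟩ ⟨0, hm0⟩ =
      -Vale.Agent.P207.Q.H545.Rf g f (⟨0, hm0⟩ : Fin Dim.m).succ 0 0
        (⟨0, hm0⟩ : Fin Dim.m).succ := rfl
    linarith
  intro a u hu v w
  have h15 := const_of_frames (i₀ := 0) (i₁ := (⟨0, hm0⟩ : Fin Dim.m).succ)
    (Fin.succ_ne_zero _).symm hR a hu w v
  rw [h15, P207F.gramDet]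
  have hs : coefIn g a u w v = coefIn g a u v w := g.symm _ _ _
  rw [hs]
  ring

end DimM

variable {n : ℕ} {M : Type} [TopologicalSpace M] [ChartedSpace (EV n) M]
  [IsManifold 𝓘(ℝ, EV n) ∞ M] [CompactSpace M] [T2Space M] [ConnectedSpace M]
  [MeasurableSpace M] [BorelSpace M]

open Vale.Agent.P207F (SecLE SecGE ricUT) in
/-- `K ≤ -l` and `-∫ Ric ≤ (n - 1) l`: the curvature is constant -/
theorem constCurv (hn : 3 ≤ n) {g : RMetric (EV n) M} {l : ℝ} (hK : SecLE g (-l)) {μ : Measure M}
    {m : Measure (UT g)} (hμ : IsRiemVol g μ) (hm : IsLiouville g μ m)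
    (h : -(∫ p, ricUT g p ∂m) ≤ (n - 1) * l) : P207F.ConstCurvature g l := by
  obtain ⟨k, rfl⟩ : ∃ k, n = k + 1 := ⟨n - 1, by omega⟩
  have h2 : 2 ≤ k := by omega
  have e : ((k + 1 : ℕ) : ℝ) - 1 = (k : ℝ) := by push_cast; ring
  rw [e] at h
  exact @const_m (N4.Dim.mk k h2) M _ _ _ _ _ _ _ _ g l hK μ m hμ hm h

end Vale.Agent.P207.H226
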