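import Vale.Agent.P207.N4.Geo.RicAv
import Vale.Agent.P207.Fin

/-!
# P207, helper226: bounds of the two entropies from the rates of the unstable Riccati solution

`m λ ≤ h_L`, `h_top ≤ m Λ` and `h_L² ≤ - m ∫ Ric` in dimension `m + 1`.
-/

open scoped Manifold ContDiff ENNReal Topology Matrix
open Bundle MeasureTheory Set Filter

set_option maxSynthPendingDepth 3
set_option linter.unusedSectionVars false

noncomputable section

namespace Vale.Agent.P207.H226

open Vale.Agent.P207.N3 Vale.Agent.P207.N4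

variable [Dim]

open Vale.Agent.P255 (RMetric)
open Vale.Agent.P207.N4.Q Vale.Agent.P207.Q Vale.Agent.P207.Q.H130

variable {M : Type} [TopologicalSpace M] [ChartedSpace (EV (Dim.m + 1)) M]
  [IsManifold 𝓘(ℝ, EV (Dim.m + 1)) ∞ M]
  [CompactSpace M] [T2Space M] {g : RMetric (EV (Dim.m + 1)) M}

theorem diag_eq {k : ℕ} (A : Matrix (Fin k) (Fin k) ℝ) (i : Fin k) :
    (Pi.single i (1 : ℝ)) ⬝ᵥ (A *ᵥ Pi.single i (1 : ℝ)) = A i i := by
  simp

theorem lam_le_trace {Φ : ℝ → Fr g → Fr g} (D : MDat g Φ) (f : Fr g) :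
    Dim.m * D.lam ≤ (D.U f).trace := by
  have h : ∀ i ∈ (Finset.univ : Finset (Fin Dim.m)), D.lam ≤ D.U f i i := fun i _ => by
    have h1 := D.ur.lo f (Pi.single i 1)
    rw [diag_eq] at h1
    simpa using h1
  have h2 := Finset.card_nsmul_le_sum Finset.univ (fun i => D.U f i i) D.lam h
  simpa [Matrix.trace] using h2

theorem trace_le_Lam {Φ : ℝ → Fr g → Fr g} (D : MDat g Φ) (f : Fr g) :
    (D.U f).trace ≤ Dim.m * D.Lam := by
  have h : ∀ i ∈ (Finset.univ : Finset (Fin Dim.m)), D.U f i i ≤ D.Lam := fun i _ => by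
    have h1 := D.hi f (Pi.single i 1)
    rw [diag_eq] at h1
    simpa using h1
  have h2 := Finset.sum_le_card_nsmul Finset.univ (fun i => D.U f i i) D.Lam h
  simpa [Matrix.trace] using h2

/-- `(1 - e^{-2ΛR}) / (2Λ) ≥ R / ((1 + 2Λ) (1 + R))` -/
theorem one_sub_exp_ge {L R : ℝ} (hL : 0 < L) (hR : 0 ≤ R) :
    (1 + 2 * L)⁻¹ * (R / (1 + R)) ≤ (1 - Real.exp (-(2 * L) * R)) / (2 * L) := by
  have h1 : 1 + 2 * L * R ≤ Real.exp (2 * L * R) := by
    have := Real.add_one_le_exp (2 * L * R)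
    linarith
  have h0 : 0 < 1 + 2 * L * R := by positivity
  have h2 : Real.exp (-(2 * L) * R) ≤ (1 + 2 * L * R)⁻¹ := by
    rw [show -(2 * L) * R = -(2 * L * R) by ring, Real.exp_neg]
    exact inv_anti₀ h0 h1
  rw [le_div_iff₀ (by positivity)]
  have h3 : (1 + 2 * L)⁻¹ * (R / (1 + R)) * (2 * L) ≤ 1 - (1 + 2 * L * R)⁻¹ := by
    have e1 : 1 - (1 + 2 * L * R)⁻¹ = (2 * L * R) / (1 + 2 * L * R) := by
      field_simp
      ring
    have e2 : (1 + 2 * L)⁻¹ * (R / (1 + R)) * (2 * L) = (2 * L * R) / ((1 + 2 * L) * (1 + R)) := by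
      field_simp
    rw [e1, e2]
    refine div_le_div_of_nonneg_left (by positivity) h0 ?_
    nlinarith
  linarith

variable {Φ : ℝ → Fr g → Fr g}

theorem integral_trace (D : MDat g Φ) (hΦ : IsHorFlow g (Pi.single 0 1) Φ)
    {φ : ℝ → UT g → UT g} (hφ : IsGeoFlow g φ) (f : Fr g) {R : ℝ} (hR : 0 ≤ R) :
    Dim.m * D.lam * R ≤ (∫ s in (0:ℝ)..R, (D.U (Φ s f)).trace) ∧
      (∫ s in (0:ℝ)..R, (D.U (Φ s f)).trace) ≤ Dim.m * D.Lam * R := by
  have hc : Continuous fun s : ℝ => (D.U (Φ s f)).trace := by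
    have e : (fun s : ℝ => (D.U (Φ s f)).trace) = fun s => D.t (φ s (f.ut 0)) := by
      funext s
      rw [← hΦ.ut_eq hφ, D.t_eq]
    rw [e]
    exact D.t.continuous.comp (hφ.continuous.comp (by fun_prop : Continuous fun s : ℝ =>
      (s, f.ut 0)))
  constructor
  · have h := intervalIntegral.integral_mono_on hR (intervalIntegrable_const (μ := volume)
      (c := Dim.m * D.lam)) (hc.intervalIntegrable 0 R) fun s _ => lam_le_trace D (Φ s f)
    rw [intervalIntegral.integral_const, sub_zero, smul_eq_mul] at h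
    linarith
  · have h := intervalIntegral.integral_mono_on hR (hc.intervalIntegrable 0 R)
      (intervalIntegrable_const (μ := volume) (c := Dim.m * D.Lam)) fun s _ =>
        trace_le_Lam D (Φ s f)
    rw [intervalIntegral.integral_const, sub_zero, smul_eq_mul] at h
    linarith

/-- the two-sided bound of the Jacobian of the exponential maps by the rates -/
theorem jac_rates (D : MDat g Φ) (hΦ : IsHorFlow g (Pi.single 0 1) Φ)
    {φ : ℝ → UT g → UT g} (hφ : IsGeoFlow g φ) (hle : 0 < D.Lam) (x : M)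
    (v : EV (Dim.m + 1)) :
    ((1 + 2 * D.Lam)⁻¹ ^ Dim.m) * dens0 g x * Real.exp (Dim.m * D.lam * nm g x v) /
        (1 + nm g x v) ^ (Dim.m + 1) ≤ jac g x v ∧
      jac g x v ≤ dens0 g x * Real.exp (Dim.m * D.Lam * nm g x v) := by
  have hd : 0 ≤ dens0 g x := Real.sqrt_nonneg _
  have hc1 : (1 + 2 * D.Lam)⁻¹ ≤ 1 := inv_le_one_of_one_le₀ (by linarith)
  have hc0 : 0 < (1 + 2 * D.Lam)⁻¹ := inv_pos.2 (by linarith)
  rcases eq_or_ne v 0 with rfl | hv
  · have h0 : nm g x 0 = 0 := by simp [nm]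
    rw [H129.jac_zero, h0]
    simp only [mul_zero, Real.exp_zero, mul_one, add_zero, one_pow, div_one, le_refl, and_true]
    exact mul_le_of_le_one_left hd (pow_le_one₀ hc0.le hc1)
  obtain ⟨f, hf⟩ := Vale.Agent.P207.Q.H892.exists_frame_ut (unitDir g x v hv)
  have hpt : f.pt = x := congrArg UT.pt hf
  subst hpt
  have hvec : (f.e 0 : EV (Dim.m + 1)) = (nm g f.pt v)⁻¹ • v := by
    have h1 := DB.unitDir_vec g f.pt hv
    rw [← h1, ← hf]
    rfl
  have hn0 : 0 < nm g f.pt v := DB.nm_pos g f.pt hv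
  set R := nm g f.pt v with hR
  have hv' : R • f.e 0 = v := by
    change R • (f.e 0 : EV (Dim.m + 1)) = v
    rw [hvec, smul_smul, mul_inv_cancel₀ hn0.ne', one_smul]
  obtain ⟨hb1, -, hb3⟩ := H129.jac_bounds_fr (k := Dim.m) hΦ D.lam_pos hle
    (fun f i j r => D.ur.ric f r i j) (D.symm hΦ) D.ur.lo D.hi f hn0
  rw [hv'] at hb1 hb3
  obtain ⟨hi1, hi2⟩ := integral_trace D hΦ hφ f hn0.le
  set I := ∫ s in (0:ℝ)..R, (D.U (Φ s f)).trace with hI
  constructor
  · have h1 : 0 < 1 + R := by linarith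
    have h2 : ((1 + 2 * D.Lam)⁻¹ * (R / (1 + R))) ^ Dim.m *
        (dens0 g f.pt * Real.exp (Dim.m * D.lam * R)) ≤ R ^ Dim.m * jac g f.pt v := by
      refine le_trans ?_ hb3
      have h3 := pow_le_pow_left₀ (by positivity) (one_sub_exp_ge hle hn0.le) Dim.m
      exact mul_le_mul h3 (mul_le_mul_of_nonneg_left (Real.exp_le_exp.2 hi1) hd)
        (by positivity) (pow_nonneg (le_trans (by positivity) (one_sub_exp_ge hle hn0.le)) _)
    rw [mul_pow, div_pow] at h2
    have h4 : ((1 + 2 * D.Lam)⁻¹ ^ Dim.m) * dens0 g f.pt * Real.exp (Dim.m * D.lam * R) /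
        (1 + R) ^ Dim.m ≤ jac g f.pt v := by
      have h5 : R ^ Dim.m * (((1 + 2 * D.Lam)⁻¹ ^ Dim.m) * dens0 g f.pt *
          Real.exp (Dim.m * D.lam * R) / (1 + R) ^ Dim.m) ≤ R ^ Dim.m * jac g f.pt v := by
        refine le_trans (le_of_eq ?_) h2
        ring
      exact le_of_mul_le_mul_left h5 (by positivity)
    refine le_trans (div_le_div_of_nonneg_left (by positivity) (by positivity) ?_) h4
    exact pow_le_pow_right₀ (by linarith) (Nat.le_succ _)
  · exact hb1.trans (mul_le_mul_of_nonneg_left (Real.exp_le_exp.2 hi2) hd)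

variable [MeasurableSpace M] [BorelSpace M]

/-- **`m λ ≤ h_L`** -/
theorem le_ksEntropy (hN : NegCurvature g) (hΦ : IsHorFlow g (Pi.single 0 1) Φ) (D : MDat g Φ)
    (hle : 0 < D.Lam) {φ : ℝ → UT g → UT g} (hφ : IsGeoFlow g φ) {μ : Measure M}
    {m : Measure (UT g)} (hμ : IsRiemVol g μ) (hm : IsLiouville g μ m) :
    ENNReal.ofReal (Dim.m * D.lam) ≤ ksEntropy m (φ 1) :=
  le_ksEntropy_of_jac (Nat.le_add_left 1 Dim.m) hφ hμ hm (npc_of_neg hN)
    (c := (1 + 2 * D.Lam)⁻¹ ^ Dim.m) (by positivity)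
    fun x v => (jac_rates D hΦ hφ hle x v).1

/-- **`h_top ≤ m Λ`** -/
theorem topEntropy_le (hN : NegCurvature g) (hΦ : IsHorFlow g (Pi.single 0 1) Φ) (D : MDat g Φ)
    (hle : 0 < D.Lam) {φ : ℝ → UT g → UT g} (hφ : IsGeoFlow g φ) :
    topEntropy (φ 1) ≤ ENNReal.ofReal (Dim.m * D.Lam) := by
  have h' := npc_of_neg hN
  have hH : 0 ≤ Dim.m * D.Lam := by positivity
  refine le_of_forall_gt_imp_ge_of_dense fun b hb => ?_
  rcases eq_or_ne b ⊤ with rfl | hb'
  · exact le_top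
  · obtain ⟨s, rfl⟩ : ∃ s : ℝ, b = ENNReal.ofReal s := ⟨b.toReal, (ENNReal.ofReal_toReal hb').symm⟩
    have hs' : Dim.m * D.Lam < s := (ENNReal.ofReal_lt_ofReal_iff_of_nonneg hH).1 hb
    exact topEntropy_le_of_growthLE hφ h' (hH.trans hs'.le)
      (growthLE_of_jac (Nat.le_add_left 1 Dim.m) h' hH
        (fun x v => (jac_rates D hΦ hφ hle x v).2) hs')

/-- **`h_L² ≤ - m ∫ Ric`** for every metric of negative curvature -/
theorem sq_ksEntropy_le [ConnectedSpace M] (hN : NegCurvature g)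
    (hΦ : IsHorFlow g (Pi.single 0 1) Φ) (D : MDat g Φ) {φ : ℝ → UT g → UT g}
    (hφ : IsGeoFlow g φ) {μ : Measure M} {m : Measure (UT g)} (hμ : IsRiemVol g μ)
    (hm : IsLiouville g μ m) :
    (ksEntropy m (φ 1)).toReal ^ 2 ≤ Dim.m * -(∫ p, P207F.ricUT g p ∂m) := by
  have hLam : 0 < max D.Lam 1 := lt_max_of_lt_right one_pos
  obtain ⟨hJu, -⟩ := H129.jac_upper_lower (k := Dim.m) hΦ hφ D.lam_pos hLam
    (fun f i j r => D.ur.ric f r i j) (D.symm hΦ) D.ur.lo
    (fun f x => (D.hi f x).trans (mul_le_mul_of_nonneg_right (le_max_left _ _)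
      (Finset.sum_nonneg fun i _ => mul_self_nonneg _))) D.t_eq
  have h1 := Q.ksEntropy_liouville_le_of_jac (Nat.le_add_left 1 Dim.m) hφ hμ hm (npc_of_neg hN)
    D.t.continuous hJu
  have h2 := D.sq_integral_le hΦ hφ hμ hm
  have h0 : 0 ≤ ∫ p, D.t p ∂m := by
    refine integral_nonneg fun p => ?_
    obtain ⟨f, rfl⟩ := Vale.Agent.P207.Q.H892.exists_frame_ut p
    rw [D.t_eq]
    exact le_trans (mul_nonneg (Nat.cast_nonneg _) D.lam_pos.le) (lam_le_trace D f)
  have h3 : (ksEntropy m (φ 1)).toReal ≤ ∫ p, D.t p ∂m := by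
    have h4 := ENNReal.toReal_mono ENNReal.ofReal_ne_top h1
    rwa [ENNReal.toReal_ofReal h0] at h4
  exact (pow_le_pow_left₀ ENNReal.toReal_nonneg h3 2).trans h2

end Vale.Agent.P207.H226
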