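import Vale.Agent.P207.H226.ConstC
import Vale.Agent.P207.H226.Conf
import Vale.Agent.P207.Bridge

/-!
# P207, helper226: the criterion with one metric of bounded curvature and the Ricci curvature of
the other one
-/

open scoped Manifold ContDiff ENNReal Topology
open Bundle MeasureTheory Set Filter

noncomputable section

namespace Vale.Agent.P207.H226

open Vale.Agent.P255 (RMetric coefIn Gam Riem)
open Vale.Agent.P207F (SecLE SecGE ricUT gramDet)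

variable {n : ℕ} {M : Type} [TopologicalSpace M] [ChartedSpace (EV n) M]
  [IsManifold 𝓘(ℝ, EV n) ∞ M]

/-- an upper bound of the sectional curvature of a multiple of the metric -/
theorem secLE_smul {g₀ g₁ : RMetric (EV n) M} {c l : ℝ} (hc : 0 < c)
    (h : ∀ x v w, g₁.inner x v w = c * g₀.inner x v w) (hK : SecLE g₀ (-l)) :
    SecLE g₁ (-(l / c)) := by
  intro a u hu v w hli
  have hcoef : ∀ u v w, coefIn g₁ a u v w = c * coefIn g₀ a u v w := fun u v w => h _ _ _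
  have h1 : Gam (coefIn g₁ a) = Gam (coefIn g₀ a) := gam_smul hc.ne' hcoef
  have h2 : Riem (coefIn g₁ a) = Riem (coefIn g₀ a) := by
    funext u x y z
    unfold Riem
    rw [h1]
  have h3 := hK a u hu v w hli
  have h4 : gramDet g₁ a u v w = c ^ 2 * gramDet g₀ a u v w := by
    unfold gramDet
    rw [hcoef, hcoef, hcoef]
    ring
  rw [h2, hcoef, h4]
  have h5 : -(l / c) * (c ^ 2 * gramDet g₀ a u v w) = c * (-l * gramDet g₀ a u v w) := by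
    field_simp
  rw [h5]
  exact mul_le_mul_of_nonneg_left h3 hc.le

variable [CompactSpace M] [T2Space M] [ConnectedSpace M] [MeasurableSpace M] [BorelSpace M]
  {g₀ g₁ : RMetric (EV n) M}
  {φ₀ : ℝ → UT g₀ → UT g₀} {φ₁ : ℝ → UT g₁ → UT g₁} {μ₀ μ₁ : Measure M}
  {m₀ : Measure (UT g₀)} {m₁ : Measure (UT g₁)}

/-- `h_L ≤ h_top` -/
theorem ks_le_top (hn : 1 ≤ n) {g : RMetric (EV n) M} {φ : ℝ → UT g → UT g} {μ : Measure M}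
    {m : Measure (UT g)} (hN : NegCurvature g) (hφ : IsGeoFlow g φ) (hμ : IsRiemVol g μ)
    (hm : IsLiouville g μ m) : ksEntropy m (φ 1) ≤ topEntropy (φ 1) := by
  have := hm.1
  have h1 := (compare hn hN hN hφ hφ hμ hm).1
  simpa [nrm_self] using h1

/-- from a factor less than one to the strict inequality -/
theorem lt_of_le_mul (hn : 2 ≤ n) {g : RMetric (EV n) M} {φ : ℝ → UT g → UT g} {μ : Measure M}
    {m : Measure (UT g)} (hN : NegCurvature g) (hφ : IsGeoFlow g φ) (hμ : IsRiemVol g μ)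
    (hm : IsLiouville g μ m) {q : ℝ} (hq : q < 1)
    (h : ksEntropy m (φ 1) ≤ ENNReal.ofReal q * topEntropy (φ 1)) :
    ksEntropy m (φ 1) < topEntropy (φ 1) ∧ ¬ LocSymmetric g := by
  have hfin := (compare (by omega) hN hN hφ hφ hμ hm).2.2
  have hlt : ksEntropy m (φ 1) < topEntropy (φ 1) := by
    rcases eq_or_ne (topEntropy (φ 1)) ⊤ with ht | ht
    · rw [ht]
      exact lt_top_iff_ne_top.2 hfin
    · refine h.trans_lt ?_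
      have h1 : ENNReal.ofReal q < 1 := by
        rw [← ENNReal.ofReal_one]
        exact (ENNReal.ofReal_lt_ofReal_iff one_pos).2 hq
      have h2 := ENNReal.mul_lt_mul_left (topEntropy_pos hn hφ hN).ne' ht h1
      rwa [one_mul] at h2
  exact ⟨hlt, fun hs => hlt.ne (ksEntropy_eq_of_locSymmetric hn hφ hμ hm hN hs)⟩

/-- **(1)** the entropies of `g₁`, the length of `g₁` and the Ricci curvature of `g₁` -/
theorem le_mul (hn : 3 ≤ n) (hN₀ : NegCurvature g₀) (hN₁ : NegCurvature g₁)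
    (hφ₀ : IsGeoFlow g₀ φ₀) (hφ₁ : IsGeoFlow g₁ φ₁)
    (hμ₀ : IsRiemVol g₀ μ₀) (hμ₁ : IsRiemVol g₁ μ₁)
    (hm₀ : IsLiouville g₀ μ₀ m₀) (hm₁ : IsLiouville g₁ μ₁ m₁) {a : ℝ} (ha : 0 < a)
    (hK : SecLE g₀ (-a ^ 2)) :
    ksEntropy m₁ (φ₁ 1) ≤ ENNReal.ofReal (Real.sqrt (-(∫ p, ricUT g₁ p ∂m₁) / (n - 1)) *
      (∫ p, nrm g₀ g₁ p ∂m₀) / a) * topEntropy (φ₁ 1) := by
  have hn1 : 1 ≤ n := by omega
  have hnr : (0 : ℝ) < n - 1 := by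
    have : (3 : ℝ) ≤ n := by exact_mod_cast hn
    linarith
  obtain ⟨hS₀, hA, -⟩ := compare hn1 hN₀ hN₁ hφ₀ hφ₁ hμ₀ hm₀
  have hfin := (compare hn1 hN₁ hN₁ hφ₁ hφ₁ hμ₁ hm₁).2.2
  have hlow := low hn hN₀ ha hK hφ₀ hμ₀ hm₀
  have hsq := sq_le hn hN₁ hφ₁ hμ₁ hm₁
  set ρ := -(∫ p, ricUT g₁ p ∂m₁) with hρ
  set A := ∫ p, nrm g₀ g₁ p ∂m₀ with hAd
  set L := (ksEntropy m₁ (φ₁ 1)).toReal with hL
  have hL0 : 0 ≤ L := ENNReal.toReal_nonneg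
  have hρ0 : 0 ≤ ρ := by
    by_contra h
    push Not at h
    nlinarith [sq_nonneg L]
  have h1 : L ≤ Real.sqrt (ρ / (n - 1)) / a * ((n - 1) * a) := by
    have e : Real.sqrt (ρ / (n - 1)) / a * ((n - 1) * a) = Real.sqrt (ρ / (n - 1)) * (n - 1) := by
      field_simp
    rw [e]
    refine abs_le_of_sq_le_sq' ?_ (by positivity) |>.2
    rw [mul_pow, Real.sq_sqrt (by positivity)]
    have e2 : ρ / (n - 1) * ((n : ℝ) - 1) ^ 2 = (n - 1) * ρ := by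
      field_simp
    rw [e2]
    exact hsq
  calc ksEntropy m₁ (φ₁ 1) = ENNReal.ofReal L := (ENNReal.ofReal_toReal hfin).symm
    _ ≤ ENNReal.ofReal (Real.sqrt (ρ / (n - 1)) / a * ((n - 1) * a)) :=
        ENNReal.ofReal_le_ofReal h1
    _ = ENNReal.ofReal (Real.sqrt (ρ / (n - 1)) / a) * ENNReal.ofReal ((n - 1) * a) :=
        ENNReal.ofReal_mul (by positivity)
    _ ≤ ENNReal.ofReal (Real.sqrt (ρ / (n - 1)) / a) * (ENNReal.ofReal A * topEntropy (φ₁ 1)) :=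
        mul_le_mul_right (hlow.trans hS₀) _
    _ = ENNReal.ofReal (Real.sqrt (ρ / (n - 1)) * A / a) * topEntropy (φ₁ 1) := by
        rw [← mul_assoc, ← ENNReal.ofReal_mul (by positivity)]
        congr 2
        ring

/-- **(1)**, the strict case -/
theorem lt_of_ric (hn : 3 ≤ n) (hN₀ : NegCurvature g₀) (hN₁ : NegCurvature g₁)
    (hφ₀ : IsGeoFlow g₀ φ₀) (hφ₁ : IsGeoFlow g₁ φ₁)
    (hμ₀ : IsRiemVol g₀ μ₀) (hμ₁ : IsRiemVol g₁ μ₁)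
    (hm₀ : IsLiouville g₀ μ₀ m₀) (hm₁ : IsLiouville g₁ μ₁ m₁) {a : ℝ} (ha : 0 < a)
    (hK : SecLE g₀ (-a ^ 2))
    (h : -(∫ p, ricUT g₁ p ∂m₁) * (∫ p, nrm g₀ g₁ p ∂m₀) ^ 2 < (n - 1) * a ^ 2) :
    ksEntropy m₁ (φ₁ 1) < topEntropy (φ₁ 1) ∧ ¬ LocSymmetric g₁ := by
  have hn1 : 1 ≤ n := by omega
  have hnr : (0 : ℝ) < n - 1 := by
    have : (3 : ℝ) ≤ n := by exact_mod_cast hn
    linarith
  obtain ⟨-, hA, -⟩ := compare hn1 hN₀ hN₁ hφ₀ hφ₁ hμ₀ hm₀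
  refine lt_of_le_mul (by omega) hN₁ hφ₁ hμ₁ hm₁ ?_
    (le_mul hn hN₀ hN₁ hφ₀ hφ₁ hμ₀ hμ₁ hm₀ hm₁ ha hK)
  rw [div_lt_one ha]
  refine abs_lt_of_sq_lt_sq' ?_ ha.le |>.2
  rw [mul_pow]
  rcases le_or_gt 0 (-(∫ p, ricUT g₁ p ∂m₁) / ((n : ℝ) - 1)) with h0 | h0
  · rw [Real.sq_sqrt h0, div_mul_eq_mul_div, div_lt_iff₀ hnr]
    linarith
  · rw [Real.sqrt_eq_zero_of_nonpos h0.le]
    simpa using pow_pos ha 2

/-- **(1)**, the case of equality -/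
theorem const_of_ric (hn : 3 ≤ n) (hN₀ : NegCurvature g₀) (hN₁ : NegCurvature g₁)
    (hφ₀ : IsGeoFlow g₀ φ₀) (hφ₁ : IsGeoFlow g₁ φ₁)
    (hμ₀ : IsRiemVol g₀ μ₀) (hμ₁ : IsRiemVol g₁ μ₁)
    (hm₀ : IsLiouville g₀ μ₀ m₀) (hm₁ : IsLiouville g₁ μ₁ m₁) {a : ℝ} (ha : 0 < a)
    (hK : SecLE g₀ (-a ^ 2))
    (h : -(∫ p, ricUT g₁ p ∂m₁) * (∫ p, nrm g₀ g₁ p ^ 2 ∂m₀) ≤ (n - 1) * a ^ 2)
    (heq : ksEntropy m₁ (φ₁ 1) = topEntropy (φ₁ 1)) :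
    0 < (∫ p, nrm g₀ g₁ p ^ 2 ∂m₀) ∧
      (∀ x v w, g₁.inner x v w = (∫ p, nrm g₀ g₁ p ^ 2 ∂m₀) * g₀.inner x v w) ∧
      P207F.ConstCurvature g₁ (a ^ 2 / ∫ p, nrm g₀ g₁ p ^ 2 ∂m₀) := by
  have hn1 : 1 ≤ n := by omega
  have hnr : (0 : ℝ) < n - 1 := by
    have : (3 : ℝ) ≤ n := by exact_mod_cast hn
    linarith
  have := hm₀.1
  have h1 : (n - 1) * a ^ 2 ≤ -(∫ p, ricUT g₁ p ∂m₁) * (∫ p, nrm g₀ g₁ p ∂m₀) ^ 2 := by
    by_contra h2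
    push Not at h2
    exact (lt_of_ric hn hN₀ hN₁ hφ₀ hφ₁ hμ₀ hμ₁ hm₀ hm₁ ha hK h2).1.ne heq
  obtain ⟨hB0, hC, -⟩ := integral_nrm_le (g₀ := g₀) (g₁ := g₁) (ν := m₀) rfl
  obtain ⟨-, hA, -⟩ := compare hn1 hN₀ hN₁ hφ₀ hφ₁ hμ₀ hm₀
  have hρ : 0 < -(∫ p, ricUT g₁ p ∂m₁) := by
    by_contra h2
    push Not at h2
    have h3 : 0 < (n - 1) * a ^ 2 := by positivity
    nlinarith [sq_nonneg (∫ p, nrm g₀ g₁ p ∂m₀)]
  have h4 : (∫ p, nrm g₀ g₁ p ^ 2 ∂m₀) ≤ (∫ p, nrm g₀ g₁ p ∂m₀) ^ 2 :=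
    le_of_mul_le_mul_left (h.trans h1) hρ
  have h5 : Real.sqrt (∫ p, nrm g₀ g₁ p ^ 2 ∂m₀) ≤ ∫ p, nrm g₀ g₁ p ∂m₀ :=
    Real.sqrt_le_iff.2 ⟨hA.le, h4⟩
  have h6 := homothetic_of_eq hn1 hμ₀ hm₀ h5
  refine ⟨hB0, h6, ?_⟩
  have hK' : SecLE g₀ (-(a ^ 2)) := by
    simpa using hK
  refine constCurv hn (secLE_smul hB0 h6 hK') hμ₁ hm₁ ?_
  rw [← mul_div_assoc, le_div_iff₀ hB0]
  exact h

/-- **(2)** the comparison with a pinched metric -/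
theorem le_mul_pinched (hn : 3 ≤ n) (hN₀ : NegCurvature g₀) (hN₁ : NegCurvature g₁)
    (hφ₀ : IsGeoFlow g₀ φ₀) (hφ₁ : IsGeoFlow g₁ φ₁)
    (hμ₀ : IsRiemVol g₀ μ₀) (hμ₁ : IsRiemVol g₁ μ₁)
    (hm₀ : IsLiouville g₀ μ₀ m₀) (hm₁ : IsLiouville g₁ μ₁ m₁) {a b : ℝ} (ha : 0 < a) (hb : 0 < b)
    (hK : SecLE g₀ (-a ^ 2)) (hK' : SecGE g₀ (-b ^ 2)) :
    ksEntropy m₁ (φ₁ 1) ≤ ENNReal.ofReal ((∫ p, nrm g₀ g₁ p ∂m₀) * (∫ p, nrm g₁ g₀ p ∂m₁) *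
      (b / a)) * topEntropy (φ₁ 1) := by
  have hn1 : 1 ≤ n := by omega
  have hnr : (0 : ℝ) < n - 1 := by
    have : (3 : ℝ) ≤ n := by exact_mod_cast hn
    linarith
  obtain ⟨hS₀, hA₀, -⟩ := compare hn1 hN₀ hN₁ hφ₀ hφ₁ hμ₀ hm₀
  obtain ⟨hS₁, hA₁, -⟩ := compare hn1 hN₁ hN₀ hφ₁ hφ₀ hμ₁ hm₁
  have hlow := low hn hN₀ ha hK hφ₀ hμ₀ hm₀
  have hup := up hn hN₀ hb hK' hφ₀
  set A₀ := ∫ p, nrm g₀ g₁ p ∂m₀ with hA₀d
  set A₁ := ∫ p, nrm g₁ g₀ p ∂m₁ with hA₁d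
  have e : A₁ * ((n - 1) * b) = A₁ * (b / a) * ((n - 1) * a) := by
    field_simp
  calc ksEntropy m₁ (φ₁ 1) ≤ ENNReal.ofReal A₁ * topEntropy (φ₀ 1) := hS₁
    _ ≤ ENNReal.ofReal A₁ * ENNReal.ofReal ((n - 1) * b) := mul_le_mul_right hup _
    _ = ENNReal.ofReal (A₁ * (b / a)) * ENNReal.ofReal ((n - 1) * a) := by
        rw [← ENNReal.ofReal_mul hA₁.le, e, ENNReal.ofReal_mul (by positivity)]
    _ ≤ ENNReal.ofReal (A₁ * (b / a)) * (ENNReal.ofReal A₀ * topEntropy (φ₁ 1)) :=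
        mul_le_mul_right (hlow.trans hS₀) _
    _ = ENNReal.ofReal (A₀ * A₁ * (b / a)) * topEntropy (φ₁ 1) := by
        rw [← mul_assoc, ← ENNReal.ofReal_mul (by positivity)]
        congr 2
        ring

end Vale.Agent.P207.H226
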