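import Vale.Agent.P207.H226.ConstC

/-!
# P207, helper226: the equality case of `h_L² ≤ -(n - 1) ∫ Ric`

Equality holds only for metrics of constant curvature.
-/

open scoped Manifold ContDiff ENNReal Topology Matrix
open Bundle MeasureTheory Set Filter

set_option maxSynthPendingDepth 3
set_option linter.unusedSectionVars false

noncomputable section

namespace Vale.Agent.P207.H226

open Vale.Agent.P255 (RMetric coefIn Gam Riem IsGeo Metric trans coefL)
open Vale.Agent.P207F (SecLE SecGE ricUT)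

theorem eq_smul_one {k : ℕ} (hk : 0 < k) {A : Matrix (Fin k) (Fin k) ℝ} (hA : Aᵀ = A) {c : ℝ}
    (h1 : A.trace = c) (h2 : k * (A * A).trace = c ^ 2) : A = (c / k) • 1 := by
  have hk' : (0 : ℝ) < k := by exact_mod_cast hk
  have h3 : ((A - (c / k) • 1)ᵀ * (A - (c / k) • 1)).trace = 0 := by
    rw [Matrix.transpose_sub, Matrix.transpose_smul, Matrix.transpose_one, hA]
    have e : (A - (c / k) • (1 : Matrix (Fin k) (Fin k) ℝ)) * (A - (c / k) • 1) =
        A * A - (2 * (c / k)) • A + (c / k) ^ 2 • 1 := by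
      rw [sub_mul, mul_sub, mul_sub]
      simp only [Matrix.mul_smul, Matrix.smul_mul, mul_one, one_mul, smul_smul]
      rw [two_mul, add_smul, sq]
      abel
    rw [e, Matrix.trace_add, Matrix.trace_sub, Matrix.trace_smul, Matrix.trace_smul, h1,
      Matrix.trace_one, Fintype.card_fin, smul_eq_mul, smul_eq_mul]
    have h4 : (A * A).trace = c ^ 2 / k := by
      rw [eq_div_iff hk'.ne']
      linarith
    rw [h4]
    field_simp
    ring
  have h5 := Matrix.trace_conjTranspose_mul_self_eq_zero_iff (A := A - (c / k) • 1)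
  rw [Matrix.conjTranspose_eq_transpose_of_trivial] at h5
  exact sub_eq_zero.1 (h5.1 h3)

section DimM

open Vale.Agent.P207.N3 Vale.Agent.P207.N4
open Vale.Agent.P207.N4.Q Vale.Agent.P207.Q Vale.Agent.P207.Q.H130

variable [Dim] {M : Type} [TopologicalSpace M] [ChartedSpace (EV (Dim.m + 1)) M]
  [IsManifold 𝓘(ℝ, EV (Dim.m + 1)) ∞ M]
  [CompactSpace M] [T2Space M] [ConnectedSpace M] [MeasurableSpace M] [BorelSpace M]
  {g : RMetric (EV (Dim.m + 1)) M}

/-- if `(∫ tr U)² ≥ - m ∫ Ric`, the curvature is constant -/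
theorem const_of_mdat {Φ : ℝ → Fr g → Fr g}
    (hΦ : IsHorFlow g (Pi.single 0 1) Φ) (D : MDat g Φ) {φ : ℝ → UT g → UT g}
    (hφ : IsGeoFlow g φ) {μ : Measure M} {m : Measure (UT g)} (hμ : IsRiemVol g μ)
    (hm : IsLiouville g μ m) (h : Dim.m * -(∫ p, ricUT g p ∂m) ≤ (∫ p, D.t p ∂m) ^ 2) :
    P207F.ConstCurvature g (((∫ p, D.t p ∂m) / Dim.m) ^ 2) := by
  have := hm.1
  have := compactSpace_UT g
  obtain ⟨κ, hκ, hκf⟩ := exists_ric (g := g)
  have hint : ∀ F : C(UT g, ℝ), Integrable F m := fun F =>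
    Integrable.of_bound (C := ‖F‖) F.continuous.measurable.aestronglyMeasurable
      (Eventually.of_forall fun x => F.norm_coe_le_norm x)
  have hflow : ∀ s (f : Fr g), (Φ s f).ut 0 = φ s (f.ut 0) := fun s f => hΦ.ut_eq hφ s f
  have hder : ∀ f : Fr g, HasDerivAt (fun s => D.t (φ s (f.ut 0)))
      (κ (f.ut 0) - (D.U f * D.U f).trace) 0 := by
    intro f
    have h1 := D.hasDerivAt_t f 0
    have h2 : Φ 0 f = f := hΦ.zero f
    rw [h2, ← hκf] at h1
    simpa only [hflow] using h1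
  have hcU : Continuous fun f : Fr g => (D.U f * D.U f).trace :=
    (D.cont.matrix_mul D.cont).matrix_trace
  obtain ⟨q, hq⟩ := exists_desc (g := g) (Y := ℝ) ⟨fun f => (D.U f * D.U f).trace, hcU⟩
    (fun A hA f => by
      have h1 := hder f
      have h2 := hder (Fr.rot A f)
      rw [H665.ut_rot hA] at h2
      have h3 := h1.unique h2
      simp only [ContinuousMap.coe_mk]
      linarith)
  have hq' : ∀ f : Fr g, q (f.ut 0) = (D.U f * D.U f).trace := hq
  have h0 : ∫ p, (κ - q) p ∂m = 0 := by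
    refine integral_flow_zero (fun x => hφ.zero x) (fun t => mp_geo hφ hμ hm t) D.t (κ - q)
      (fun x t => ?_)
    obtain ⟨f, rfl⟩ := H892.exists_frame_ut x
    have h1 := D.hasDerivAt_t f t
    rw [← hκf, ← hq', hflow] at h1
    simpa only [hflow, ContinuousMap.sub_apply] using h1
  have h1 : ∫ p, κ p ∂m = ∫ p, q p ∂m := by
    have h2 : ∫ p, (κ - q) p ∂m = ∫ p, κ p ∂m - ∫ p, q p ∂m := integral_sub (hint κ) (hint q)
    linarith
  have h2 : ∀ p, D.t p ^ 2 ≤ Dim.m * q p := by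
    intro p
    obtain ⟨f, rfl⟩ := H892.exists_frame_ut p
    rw [hq', D.t_eq]
    exact sq_trace_le (D.symm hΦ f)
  set c := ∫ p, D.t p ∂m with hc
  have h7 : ∫ p, κ p ∂m = -∫ p, ricUT g p ∂m := by
    have h8 : ∫ p, κ p ∂m = ∫ p : UT g, -(ricUT g p) ∂m :=
      integral_congr_ae (Eventually.of_forall hκ)
    exact h8.trans (integral_neg (fun p : UT g => ricUT g p))
  -- the sum of two nonnegative functions of integral zero
  let F : C(UT g, ℝ) := ((Dim.m : ℝ) • q - D.t ^ 2) + (D.t - ContinuousMap.const _ c) ^ 2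
  have hF : ∀ p, F p = (Dim.m * q p - D.t p ^ 2) + (D.t p - c) ^ 2 := fun p => by
    simp [F]
  have hF' : ∀ p, F p = Dim.m * q p - (2 * c * D.t p - c ^ 2) := fun p => by
    rw [hF]; ring
  have hFnn : ∀ p, 0 ≤ F p := fun p => by
    rw [hF]
    have := h2 p
    nlinarith [sq_nonneg (D.t p - c)]
  have hFint : ∫ p, F p ∂m = Dim.m * -(∫ p, ricUT g p ∂m) - c ^ 2 := by
    simp only [hF']
    have i1 : Integrable (fun p => (Dim.m : ℝ) * q p) m := (hint q).const_mul _
    have i2 : Integrable (fun p => 2 * c * D.t p) m := (hint D.t).const_mul _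
    have e1 : ∫ p, (Dim.m * q p - (2 * c * D.t p - c ^ 2)) ∂m =
        ∫ p, Dim.m * q p ∂m - ∫ p, (2 * c * D.t p - c ^ 2) ∂m :=
      integral_sub i1 (i2.sub (integrable_const _))
    have e2 : ∫ p, (2 * c * D.t p - c ^ 2) ∂m = ∫ p, 2 * c * D.t p ∂m - ∫ _ : UT g, c ^ 2 ∂m :=
      integral_sub i2 (integrable_const _)
    rw [e1, e2, integral_const_mul, integral_const_mul, ← hc, ← h7, h1]
    simp
    ring
  have hz : ∫ p, F p ∂m = 0 := by
    refine le_antisymm ?_ (integral_nonneg hFnn)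
    rw [hFint]
    linarith
  have h9 := hm.eq_zero (Nat.le_add_left 1 Dim.m) hμ (a := fun p => F p)
    F.continuous hFnn hz
  have hm0 : 0 < Dim.m := lt_of_lt_of_le two_pos Dim.two_le
  have hU : ∀ f : Fr g, D.U f = (c / Dim.m) • 1 := fun f => by
    have e1 : F (f.ut 0) = 0 := h9 (f.ut 0)
    rw [hF] at e1
    have e2 := h2 (f.ut 0)
    have e3 : (D.t (f.ut 0) - c) ^ 2 = 0 := by
      have := sq_nonneg (D.t (f.ut 0) - c)
      linarith
    have e4 : D.t (f.ut 0) = c := by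
      have := pow_eq_zero_iff (two_ne_zero) |>.1 e3
      linarith
    have e5 : Dim.m * q (f.ut 0) = c ^ 2 := by
      rw [e3, e4] at e1
      linarith
    rw [D.t_eq] at e4
    rw [hq'] at e5
    exact eq_smul_one hm0 (D.symm hΦ f) e4 e5
  have hK : ∀ (f : Fr g) (i : Fin Dim.m), Km g f i i = (c / Dim.m) ^ 2 := fun f i => by
    have e1 := D.ur.ric f 0 i i
    have e2 : (fun s => D.U (Φ s f) i i) = fun _ => c / Dim.m := by
      funext s
      rw [hU]
      simp
    rw [e2] at e1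
    have e3 := e1.unique (hasDerivAt_const (0 : ℝ) (c / Dim.m))
    have e4 : Φ 0 f = f := hΦ.zero f
    rw [e4, hU] at e3
    simp at e3
    have e5 : Km g f i i = c / Dim.m * (c / Dim.m) := by linarith
    rw [e5, sq]
  intro a u hu v w
  have hR : ∀ f : Fr g, Vale.Agent.P207.Q.H545.Rf g f (⟨0, hm0⟩ : Fin Dim.m).succ 0 0
      (⟨0, hm0⟩ : Fin Dim.m).succ = -(c / Dim.m) ^ 2 := fun f => by
    have h14 : Km g f ⟨0, hm0⟩ ⟨0, hm0⟩ =
      -Vale.Agent.P207.Q.H545.Rf g f (⟨0, hm0⟩ : Fin Dim.m).succ 0 0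
        (⟨0, hm0⟩ : Fin Dim.m).succ := rfl
    rw [hK] at h14
    linarith
  have h15 := const_of_frames (i₀ := 0) (i₁ := (⟨0, hm0⟩ : Fin Dim.m).succ)
    (Fin.succ_ne_zero _).symm hR a hu w v
  rw [h15, P207F.gramDet]
  have hs : coefIn g a u w v = coefIn g a u v w := g.symm _ _ _
  rw [hs]
  ring

theorem rig_m (hN : NegCurvature g) {φ : ℝ → UT g → UT g} (hφ : IsGeoFlow g φ) {μ : Measure M}
    {m : Measure (UT g)} (hμ : IsRiemVol g μ) (hm : IsLiouville g μ m)
    (h : Dim.m * -(∫ p, ricUT g p ∂m) ≤ (ksEntropy m (φ 1)).toReal ^ 2) :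
    ∃ κ : ℝ, 0 < κ ∧ P207F.ConstCurvature g κ := by
  have := nonempty_Fr (g := g)
  obtain ⟨D⟩ := exists_MDat hN hφ
  have hΦ := (horFlows g).hor 0
  have hLam : 0 < max D.Lam 1 := lt_max_of_lt_right one_pos
  obtain ⟨hJu, -⟩ := H129.jac_upper_lower (k := Dim.m) hΦ hφ D.lam_pos hLam
    (fun f i j r => D.ur.ric f r i j) (D.symm hΦ) D.ur.lo
    (fun f x => (D.hi f x).trans (mul_le_mul_of_nonneg_right (le_max_left _ _)
      (Finset.sum_nonneg fun i _ => mul_self_nonneg _))) D.t_eq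
  have h1 := Q.ksEntropy_liouville_le_of_jac (Nat.le_add_left 1 Dim.m) hφ hμ hm (npc_of_neg hN)
    D.t.continuous hJu
  have hm0 : 0 < (Dim.m : ℝ) := by
    have := Dim.two_le
    exact_mod_cast (by omega : 0 < Dim.m)
  have := hm.1
  have := compactSpace_UT g
  have hlo : Dim.m * D.lam ≤ ∫ p, D.t p ∂m := by
    have h4 : ∫ _ : UT g, (Dim.m * D.lam : ℝ) ∂m ≤ ∫ p, D.t p ∂m := by
      refine integral_mono (integrable_const _) (Integrable.of_bound (C := ‖D.t‖)
        D.t.continuous.measurable.aestronglyMeasurable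
        (Eventually.of_forall fun x => D.t.norm_coe_le_norm x)) fun p => ?_
      obtain ⟨f, rfl⟩ := Vale.Agent.P207.Q.H892.exists_frame_ut p
      change Dim.m * D.lam ≤ D.t (f.ut 0)
      rw [D.t_eq]
      exact lam_le_trace D f
    simpa using h4
  have hpos : 0 < ∫ p, D.t p ∂m := lt_of_lt_of_le (mul_pos hm0 D.lam_pos) hlo
  have h3 : (ksEntropy m (φ 1)).toReal ≤ ∫ p, D.t p ∂m := by
    have h4 := ENNReal.toReal_mono ENNReal.ofReal_ne_top h1
    rwa [ENNReal.toReal_ofReal hpos.le] at h4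
  exact ⟨_, by positivity, const_of_mdat hΦ D hφ hμ hm
    (h.trans (pow_le_pow_left₀ ENNReal.toReal_nonneg h3 2))⟩

end DimM

variable {n : ℕ} {M : Type} [TopologicalSpace M] [ChartedSpace (EV n) M]
  [IsManifold 𝓘(ℝ, EV n) ∞ M] [CompactSpace M] [T2Space M] [ConnectedSpace M]
  [MeasurableSpace M] [BorelSpace M]

/-- the equality case of `h_L² ≤ -(n - 1) ∫ Ric` -/
theorem rig (hn : 3 ≤ n) {g : RMetric (EV n) M} (hN : NegCurvature g) {φ : ℝ → UT g → UT g}
    (hφ : IsGeoFlow g φ) {μ : Measure M} {m : Measure (UT g)} (hμ : IsRiemVol g μ)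
    (hm : IsLiouville g μ m)
    (h : (n - 1) * -(∫ p, ricUT g p ∂m) ≤ (ksEntropy m (φ 1)).toReal ^ 2) :
    ∃ κ : ℝ, 0 < κ ∧ P207F.ConstCurvature g κ := by
  obtain ⟨k, rfl⟩ : ∃ k, n = k + 1 := ⟨n - 1, by omega⟩
  have h2 : 2 ≤ k := by omega
  have e : ((k + 1 : ℕ) : ℝ) - 1 = (k : ℝ) := by push_cast; ring
  rw [e] at h
  exact @rig_m (N4.Dim.mk k h2) M _ _ _ _ _ _ _ _ g hN φ hφ μ m hμ hm h

end Vale.Agent.P207.H226
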