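import Vale.Agent.P207.H226.Main
import Vale.Agent.P207.H226.Rig

/-!
# P207, helper226: the criterion for two arbitrary metrics of negative curvature
-/

open scoped Manifold ContDiff ENNReal Topology
open Bundle MeasureTheory Set Filter

noncomputable section

namespace Vale.Agent.P207.H226

open Vale.Agent.P255 (RMetric coefIn Gam Riem)
open Vale.Agent.P207F (SecLE SecGE ricUT gramDet)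

variable {n : ℕ} {M : Type} [TopologicalSpace M] [ChartedSpace (EV n) M]
  [IsManifold 𝓘(ℝ, EV n) ∞ M]
  [CompactSpace M] [T2Space M] [ConnectedSpace M] [MeasurableSpace M] [BorelSpace M]
  {g₀ g₁ : RMetric (EV n) M}
  {φ₀ : ℝ → UT g₀ → UT g₀} {φ₁ : ℝ → UT g₁ → UT g₁} {μ₀ μ₁ : Measure M}
  {m₀ : Measure (UT g₀)} {m₁ : Measure (UT g₁)}

/-- the product of the two Liouville entropies -/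
theorem mul_le (hn : 3 ≤ n) (hN₀ : NegCurvature g₀) (hN₁ : NegCurvature g₁)
    (hφ₀ : IsGeoFlow g₀ φ₀) (hφ₁ : IsGeoFlow g₁ φ₁)
    (hμ₀ : IsRiemVol g₀ μ₀) (hμ₁ : IsRiemVol g₁ μ₁)
    (hm₀ : IsLiouville g₀ μ₀ m₀) (hm₁ : IsLiouville g₁ μ₁ m₁) :
    ksEntropy m₀ (φ₀ 1) * ksEntropy m₁ (φ₁ 1) ≤
      ENNReal.ofReal (Real.sqrt ((n - 1) * -(∫ p, ricUT g₁ p ∂m₁)) * ∫ p, nrm g₀ g₁ p ∂m₀) *
        topEntropy (φ₁ 1) := by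
  have hn1 : 1 ≤ n := by omega
  obtain ⟨hS₀, hA, -⟩ := compare hn1 hN₀ hN₁ hφ₀ hφ₁ hμ₀ hm₀
  have hfin := (compare hn1 hN₁ hN₁ hφ₁ hφ₁ hμ₁ hm₁).2.2
  have hsq := sq_le hn hN₁ hφ₁ hμ₁ hm₁
  have h1 : ksEntropy m₁ (φ₁ 1) ≤
      ENNReal.ofReal (Real.sqrt ((n - 1) * -(∫ p, ricUT g₁ p ∂m₁))) := by
    rw [← ENNReal.ofReal_toReal hfin]
    exact ENNReal.ofReal_le_ofReal (Real.le_sqrt_of_sq_le hsq)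
  calc ksEntropy m₀ (φ₀ 1) * ksEntropy m₁ (φ₁ 1) ≤
      (ENNReal.ofReal (∫ p, nrm g₀ g₁ p ∂m₀) * topEntropy (φ₁ 1)) *
        ENNReal.ofReal (Real.sqrt ((n - 1) * -(∫ p, ricUT g₁ p ∂m₁))) := mul_le_mul' hS₀ h1
    _ = _ := by
      rw [ENNReal.ofReal_mul (Real.sqrt_nonneg _)]
      ring

/-- if `h_L(g₁) ≥ h_top(g₁)`: `h_L(g₀)² ≤ A² h_L(g₁)²` -/
theorem sq_le_of_ge (hn : 3 ≤ n) (hN₀ : NegCurvature g₀) (hN₁ : NegCurvature g₁)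
    (hφ₀ : IsGeoFlow g₀ φ₀) (hφ₁ : IsGeoFlow g₁ φ₁)
    (hμ₀ : IsRiemVol g₀ μ₀) (hμ₁ : IsRiemVol g₁ μ₁)
    (hm₀ : IsLiouville g₀ μ₀ m₀) (hm₁ : IsLiouville g₁ μ₁ m₁)
    (hge : topEntropy (φ₁ 1) ≤ ksEntropy m₁ (φ₁ 1)) :
    (ksEntropy m₀ (φ₀ 1)).toReal ^ 2 ≤
      (∫ p, nrm g₀ g₁ p ∂m₀) ^ 2 * (ksEntropy m₁ (φ₁ 1)).toReal ^ 2 := by
  have hn1 : 1 ≤ n := by omega
  obtain ⟨hS₀, hA, -⟩ := compare hn1 hN₀ hN₁ hφ₀ hφ₁ hμ₀ hm₀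
  have hfin := (compare hn1 hN₁ hN₁ hφ₁ hφ₁ hμ₁ hm₁).2.2
  have h1 := hS₀.trans (mul_le_mul_right hge _)
  have h2 := ENNReal.toReal_mono (ENNReal.mul_ne_top ENNReal.ofReal_ne_top hfin) h1
  rw [ENNReal.toReal_mul, ENNReal.toReal_ofReal hA.le] at h2
  rw [← mul_pow]
  exact pow_le_pow_left₀ ENNReal.toReal_nonneg h2 2

/-- the strict case -/
theorem gap (hn : 3 ≤ n) (hN₀ : NegCurvature g₀) (hN₁ : NegCurvature g₁)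
    (hφ₀ : IsGeoFlow g₀ φ₀) (hφ₁ : IsGeoFlow g₁ φ₁)
    (hμ₀ : IsRiemVol g₀ μ₀) (hμ₁ : IsRiemVol g₁ μ₁)
    (hm₀ : IsLiouville g₀ μ₀ m₀) (hm₁ : IsLiouville g₁ μ₁ m₁)
    (h : (n - 1) * -(∫ p, ricUT g₁ p ∂m₁) * (∫ p, nrm g₀ g₁ p ∂m₀) ^ 2 <
      (ksEntropy m₀ (φ₀ 1)).toReal ^ 2) :
    ksEntropy m₁ (φ₁ 1) < topEntropy (φ₁ 1) ∧ ¬ LocSymmetric g₁ := by
  have hlt : ksEntropy m₁ (φ₁ 1) < topEntropy (φ₁ 1) := by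
    by_contra h1
    push Not at h1
    have h2 := sq_le_of_ge hn hN₀ hN₁ hφ₀ hφ₁ hμ₀ hμ₁ hm₀ hm₁ h1
    have hsq := sq_le hn hN₁ hφ₁ hμ₁ hm₁
    have h3 := mul_le_mul_of_nonneg_left hsq (sq_nonneg (∫ p, nrm g₀ g₁ p ∂m₀))
    linarith
  exact ⟨hlt, fun hs => hlt.ne (ksEntropy_eq_of_locSymmetric (by omega) hφ₁ hμ₁ hm₁ hN₁ hs)⟩

/-- the case of equality -/
theorem rigid (hn : 3 ≤ n) (hN₀ : NegCurvature g₀) (hN₁ : NegCurvature g₁)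
    (hφ₀ : IsGeoFlow g₀ φ₀) (hφ₁ : IsGeoFlow g₁ φ₁)
    (hμ₀ : IsRiemVol g₀ μ₀) (hμ₁ : IsRiemVol g₁ μ₁)
    (hm₀ : IsLiouville g₀ μ₀ m₀) (hm₁ : IsLiouville g₁ μ₁ m₁)
    (h : (n - 1) * -(∫ p, ricUT g₁ p ∂m₁) * (∫ p, nrm g₀ g₁ p ^ 2 ∂m₀) ≤
      (ksEntropy m₀ (φ₀ 1)).toReal ^ 2)
    (heq : ksEntropy m₁ (φ₁ 1) = topEntropy (φ₁ 1)) :
    (∀ x v w, g₁.inner x v w = (∫ p, nrm g₀ g₁ p ^ 2 ∂m₀) * g₀.inner x v w) ∧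
      ∃ κ : ℝ, 0 < κ ∧ P207F.ConstCurvature g₁ κ := by
  have hn1 : 1 ≤ n := by omega
  have := hm₀.1
  have h2 := sq_le_of_ge hn hN₀ hN₁ hφ₀ hφ₁ hμ₀ hμ₁ hm₀ hm₁ heq.ge
  have hsq := sq_le hn hN₁ hφ₁ hμ₁ hm₁
  obtain ⟨hB0, hC, -⟩ := integral_nrm_le (g₀ := g₀) (g₁ := g₁) (ν := m₀) rfl
  obtain ⟨-, hA, -⟩ := compare hn1 hN₀ hN₁ hφ₀ hφ₁ hμ₀ hm₀
  have hfin := (compare hn1 hN₁ hN₁ hφ₁ hφ₁ hμ₁ hm₁).2.2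
  have hL : 0 < (ksEntropy m₁ (φ₁ 1)).toReal := by
    refine ENNReal.toReal_pos ?_ hfin
    rw [heq]
    exact (topEntropy_pos (by omega) hφ₁ hN₁).ne'
  have hAB : (∫ p, nrm g₀ g₁ p ∂m₀) ^ 2 ≤ ∫ p, nrm g₀ g₁ p ^ 2 ∂m₀ := by
    have h3 := pow_le_pow_left₀ hA.le hC 2
    rwa [Real.sq_sqrt hB0.le] at h3
  set ρ := (n - 1) * -(∫ p, ricUT g₁ p ∂m₁) with hρ
  set A := ∫ p, nrm g₀ g₁ p ∂m₀ with hAd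
  set B := ∫ p, nrm g₀ g₁ p ^ 2 ∂m₀ with hBd
  set L := (ksEntropy m₁ (φ₁ 1)).toReal with hLd
  have hL2 : 0 < L ^ 2 := by positivity
  have hρ0 : 0 < ρ := lt_of_lt_of_le hL2 hsq
  have h4 : B ≤ A ^ 2 := by
    have h5 : ρ * B ≤ ρ * A ^ 2 := by nlinarith [sq_nonneg A]
    exact le_of_mul_le_mul_left h5 hρ0
  have h6 : ρ ≤ L ^ 2 := by
    have h7 : B * ρ ≤ B * L ^ 2 := by nlinarith
    exact le_of_mul_le_mul_left h7 hB0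
  have h5 : Real.sqrt B ≤ A := Real.sqrt_le_iff.2 ⟨hA.le, h4⟩
  exact ⟨homothetic_of_eq hn1 hμ₀ hm₀ h5, rig hn hN₁ hφ₁ hμ₁ hm₁ h6⟩

end Vale.Agent.P207.H226
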