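import Vale.Agent.P207.H226.RDefs
import Vale.Agent.P207.R2.H193.Defs

/-!
# P207: the comparison of the entropies by means of a map homotopic to the identity
-/

open scoped Manifold ContDiff ENNReal
open Bundle MeasureTheory

noncomputable section

namespace Vale.Agent.P207F

open Vale.Agent.P255 (RMetric)
open Vale.Agent.P207T (IsC1Id stretch energy IsHomothety)

/-- The comparison of the entropies of `g₁` by means of the Liouville entropy of `g₀`, a `C¹` map
`f` homotopic to the identity and a number `ρ` (the mean of `-Ric(v,v)` for `g₁`). -/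
def RicciMapCase {E : Type} [NormedAddCommGroup E] [NormedSpace ℝ E] [MeasureSpace E] {M : Type}
    [TopologicalSpace M] [ChartedSpace E M] [IsManifold 𝓘(ℝ, E) ∞ M] [MeasurableSpace M] {n : ℕ}
    (b : Fin n → E) (g₀ g₁ : RMetric E M) (ρ : ℝ) : Prop :=
  ∀ f : M → M, IsC1Id E f →
    hLiou b g₀ * hLiou b g₁ ≤
      ENNReal.ofReal (Real.sqrt ((n - 1) * ρ) * stretch b g₀ g₁ f) * hTop g₁ ∧
    ((n - 1) * ρ * stretch b g₀ g₁ f ^ 2 < (hLiou b g₀).toReal ^ 2 → EntropyGap b g₁) ∧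
    ((n - 1) * ρ * energy b g₀ g₁ f ≤ (hLiou b g₀).toReal ^ 2 →
      (hLiou b g₁ = hTop g₁ ↔ LocSymmetric g₁) ∧
      (hLiou b g₁ = hTop g₁ ↔ IsHomothety g₀ g₁ f (energy b g₀ g₁ f) ∧
        ∃ κ : ℝ, 0 < κ ∧ ConstCurvature g₁ κ))

end Vale.Agent.P207F
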