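import Vale.Agent.P207.H226.Main2
import Vale.Agent.P207.H226.RDefs2
import Vale.Agent.P207.R2.H193.Top

/-!
# P207, helper226: the criterion for maps homotopic to the identity
-/

open scoped Manifold ContDiff ENNReal Topology
open Bundle MeasureTheory Set Filter

noncomputable section

namespace Vale.Agent.P207.H226

open Vale.Agent.P255 (RMetric)

variable {n : ℕ} {M : Type} [TopologicalSpace M] [ChartedSpace (EV n) M]
  [IsManifold 𝓘(ℝ, EV n) ∞ M] [CompactSpace M] [T2Space M] [ConnectedSpace M]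
  [MeasurableSpace M] [BorelSpace M]

section Pos

open Vale.Agent.P207.N3 Vale.Agent.P207.N4
open Vale.Agent.P207.N4.Q Vale.Agent.P207.Q

theorem pos_m [Dim] {M : Type} [TopologicalSpace M] [ChartedSpace (EV (Dim.m + 1)) M]
    [IsManifold 𝓘(ℝ, EV (Dim.m + 1)) ∞ M] [CompactSpace M] [T2Space M] [ConnectedSpace M]
    [MeasurableSpace M] [BorelSpace M] {g : RMetric (EV (Dim.m + 1)) M}
    (hN : NegCurvature g) {φ : ℝ → UT g → UT g} (hφ : IsGeoFlow g φ)
    {μ : Measure M} {m : Measure (UT g)} (hμ : IsRiemVol g μ)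
    (hm : IsLiouville g μ m) :
    ∃ a : ℝ, 0 < a ∧ ENNReal.ofReal a ≤ ksEntropy m (φ 1) := by
  have := nonempty_Fr (g := g)
  obtain ⟨D⟩ := exists_MDat hN hφ
  have hm0 : 0 < (Dim.m : ℝ) := by
    have := Dim.two_le
    exact_mod_cast (by omega : 0 < Dim.m)
  obtain ⟨f⟩ : Nonempty (Fr g) := inferInstance
  have h1 := (lam_le_trace D f).trans (trace_le_Lam D f)
  have h2 : 0 < D.Lam := lt_of_lt_of_le D.lam_pos (le_of_mul_le_mul_left h1 hm0)
  exact ⟨Dim.m * D.lam, mul_pos hm0 D.lam_pos,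
    le_ksEntropy hN ((horFlows g).hor 0) D h2 hφ hμ hm⟩

end Pos

theorem pos_n (hn : 3 ≤ n) {g : RMetric (EV n) M}
    (hN : NegCurvature g) {φ : ℝ → UT g → UT g} (hφ : IsGeoFlow g φ)
    {μ : Measure M} {m : Measure (UT g)} (hμ : IsRiemVol g μ)
    (hm : IsLiouville g μ m) :
    ∃ a : ℝ, 0 < a ∧ ENNReal.ofReal a ≤ ksEntropy m (φ 1) := by
  obtain ⟨k, rfl⟩ : ∃ k, n = k + 1 := ⟨n - 1, by omega⟩
  have h2 : 2 ≤ k := by omega
  exact @pos_m (N4.Dim.mk k h2) M _ _ _ _ _ _ _ _ g hN φ hφ μ m hμ hm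

end Vale.Agent.P207.H226

namespace Vale.Agent.P207F.R226

open Vale.Agent.P255 (RMetric)
open Vale.Agent.P207F
open Vale.Agent.P207.H226 (sq_le rig pos_n locSymmetric_of_constCurvature)
open Vale.Agent.P207T (IsC1Id stretch energy IsHomothety sqLen)

variable {n : ℕ} {M : Type} [TopologicalSpace M] [ChartedSpace (EV n) M]
  [IsManifold 𝓘(ℝ, EV n) ∞ M] [CompactSpace M] [T2Space M] [ConnectedSpace M]
  [MeasurableSpace M] [BorelSpace M] {g₀ g₁ : RMetric (EV n) M}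

theorem map_le (hn : 2 ≤ n) (hN₀ : NegCurvature g₀) (hN₁ : NegCurvature g₁) {f : M → M}
    (h : IsC1Id (EV n) f) :
    hLiou (stdB n) g₀ ≤ ENNReal.ofReal (stretch (stdB n) g₀ g₁ f) * hTop g₁ ∧
      0 ≤ stretch (stdB n) g₀ g₁ f := by
  obtain ⟨F, -, hF⟩ := Vale.Agent.P207T.isTestMap_of_map (g₀ := g₀) (g₁ := g₁) hn h
  exact ⟨Vale.Agent.P207T.test_le hn hN₀ hN₁ hF, integral_nonneg fun p => Real.sqrt_nonneg _⟩

theorem hLiou_ne_top (hn : 2 ≤ n) {g : RMetric (EV n) M} (hN : NegCurvature g) :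
    hLiou (stdB n) g ≠ ⊤ := by
  have hW := wellDefined hn g
  have hφ := (hW.1 _).2 rfl
  have hμ := (hW.2.1 _).2 rfl
  have hm := (hW.2.2 _).2 rfl
  exact (P207.compare (by omega) hN hN hφ hφ hμ hm).2.2

theorem sq_hLiou_le (hn : 3 ≤ n) {g : RMetric (EV n) M} (hN : NegCurvature g) :
    (hLiou (stdB n) g).toReal ^ 2 ≤ (n - 1) * negRic g := by
  have hn2 : 2 ≤ n := by omega
  have hW := wellDefined hn2 g
  have hφ := (hW.1 _).2 rfl
  have hμ := (hW.2.1 _).2 rfl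
  have hm := (hW.2.2 _).2 rfl
  exact sq_le hn hN hφ hμ hm

theorem rig_hLiou (hn : 3 ≤ n) {g : RMetric (EV n) M} (hN : NegCurvature g)
    (h : (n - 1) * negRic g ≤ (hLiou (stdB n) g).toReal ^ 2) :
    ∃ κ : ℝ, 0 < κ ∧ ConstCurvature g κ := by
  have hn2 : 2 ≤ n := by omega
  have hW := wellDefined hn2 g
  have hφ := (hW.1 _).2 rfl
  have hμ := (hW.2.1 _).2 rfl
  have hm := (hW.2.2 _).2 rfl
  exact rig hn hN hφ hμ hm h

theorem hLiou_pos (hn : 3 ≤ n) {g : RMetric (EV n) M} (hN : NegCurvature g) :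
    0 < (hLiou (stdB n) g).toReal := by
  have hn2 : 2 ≤ n := by omega
  have hW := wellDefined hn2 g
  have hφ := (hW.1 _).2 rfl
  have hμ := (hW.2.1 _).2 rfl
  have hm := (hW.2.2 _).2 rfl
  obtain ⟨a, ha, h⟩ := pos_n hn hN hφ hμ hm
  exact lt_of_lt_of_le ha ((ENNReal.ofReal_le_iff_le_toReal (hLiou_ne_top (by omega) hN)).1 h)

theorem ricciMapCase (hn : 3 ≤ n) (hN₀ : NegCurvature g₀) (hN₁ : NegCurvature g₁) :
    RicciMapCase (stdB n) g₀ g₁ (negRic g₁) := by
  have hn2 : 2 ≤ n := by omega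
  intro f h
  obtain ⟨hle, hs0⟩ := map_le (g₀ := g₀) (g₁ := g₁) hn2 hN₀ hN₁ h
  have hfin := hLiou_ne_top hn2 hN₁
  have hsq := sq_hLiou_le hn hN₁
  have hsym : LocSymmetric g₁ → hLiou (stdB n) g₁ = hTop g₁ :=
    Vale.Agent.P207T.eq_of_sym hn2 hN₁
  -- if `h_top ≤ h_L` for `g₁`
  have key : hTop g₁ ≤ hLiou (stdB n) g₁ → (hLiou (stdB n) g₀).toReal ^ 2 ≤
      stretch (stdB n) g₀ g₁ f ^ 2 * (hLiou (stdB n) g₁).toReal ^ 2 := by
    intro hge
    have h1 := hle.trans (mul_le_mul_right hge _)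
    have h2 := ENNReal.toReal_mono (ENNReal.mul_ne_top ENNReal.ofReal_ne_top hfin) h1
    rw [ENNReal.toReal_mul, ENNReal.toReal_ofReal hs0] at h2
    rw [← mul_pow]
    exact pow_le_pow_left₀ ENNReal.toReal_nonneg h2 2
  refine ⟨?_, fun hlt => ?_, fun hE => ?_⟩
  · have h1 : hLiou (stdB n) g₁ ≤ ENNReal.ofReal (Real.sqrt ((n - 1) * negRic g₁)) := by
      rw [← ENNReal.ofReal_toReal hfin]
      exact ENNReal.ofReal_le_ofReal (Real.le_sqrt_of_sq_le hsq)
    calc hLiou (stdB n) g₀ * hLiou (stdB n) g₁ ≤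
        (ENNReal.ofReal (stretch (stdB n) g₀ g₁ f) * hTop g₁) *
          ENNReal.ofReal (Real.sqrt ((n - 1) * negRic g₁)) := mul_le_mul' hle h1
      _ = _ := by
        rw [ENNReal.ofReal_mul (Real.sqrt_nonneg _)]
        ring
  · have hlt' : hLiou (stdB n) g₁ < hTop g₁ := by
      by_contra h1
      push Not at h1
      have h2 := key h1
      have h3 := mul_le_mul_of_nonneg_left hsq (sq_nonneg (stretch (stdB n) g₀ g₁ f))
      linarith
    exact ⟨hlt', fun hs => hlt'.ne (hsym hs)⟩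
  · obtain ⟨hcs, hcs'⟩ := Vale.Agent.P207T.energy_cs (g₀ := g₀) (g₁ := g₁) hn2 h
    have hmain : hLiou (stdB n) g₁ = hTop g₁ →
        IsHomothety g₀ g₁ f (energy (stdB n) g₀ g₁ f) ∧ ∃ κ : ℝ, 0 < κ ∧ ConstCurvature g₁ κ := by
      intro heq
      have h2 := key heq.ge
      have hL : 0 < (hLiou (stdB n) g₁).toReal := by
        refine ENNReal.toReal_pos ?_ hfin
        rw [heq]
        have hφ₁ := ((wellDefined hn2 g₁).1 _).2 rfl
        exact (P207.topEntropy_pos hn2 hφ₁ hN₁).ne'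
      set ρ := (n - 1) * negRic g₁ with hρ
      set s := stretch (stdB n) g₀ g₁ f with hs
      set e := energy (stdB n) g₀ g₁ f with he
      set L := (hLiou (stdB n) g₁).toReal with hLd
      have hL2 : 0 < L ^ 2 := by positivity
      have hρ0 : 0 < ρ := lt_of_lt_of_le hL2 hsq
      have h4 : e ≤ s ^ 2 := by
        have h5 : ρ * e ≤ ρ * s ^ 2 := by nlinarith [sq_nonneg s]
        exact le_of_mul_le_mul_left h5 hρ0
      have hes : e = s ^ 2 := le_antisymm h4 hcs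
      have he0 : 0 < e := by
        rw [hes]
        have h5 : 0 < (hLiou (stdB n) g₀).toReal ^ 2 := by
          have h6 := hLiou_pos hn hN₀
          positivity
        by_contra h7
        push Not at h7
        have h8 : s ^ 2 = 0 := le_antisymm h7 (sq_nonneg s)
        rw [h8, zero_mul] at h2
        linarith
      have h6 : ρ ≤ L ^ 2 := by
        have h7 : e * ρ ≤ e * L ^ 2 := by
          rw [hes] at hE ⊢
          nlinarith
        exact le_of_mul_le_mul_left h7 he0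
      refine ⟨?_, rig_hLiou hn hN₁ h6⟩
      rw [hes]
      exact Vale.Agent.P207T.isHomothety_of (hcs' h4)
    refine ⟨⟨fun heq => ?_, hsym⟩, hmain, fun hc => ?_⟩
    · obtain ⟨-, κ, -, hκ⟩ := hmain heq
      exact locSymmetric_of_constCurvature hκ
    · obtain ⟨-, κ, -, hκ⟩ := hc
      exact hsym (locSymmetric_of_constCurvature hκ)

end Vale.Agent.P207F.R226
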