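import Vale.Agent.P207.H118.EDefs

/-!
# P207: comparison of the entropies with the mean of the Ricci curvature
-/

open scoped Manifold ContDiff ENNReal
open Bundle MeasureTheory

noncomputable section

namespace Vale.Agent.P207F

open Vale.Agent.P255 (RMetric)

section

variable {E : Type} [NormedAddCommGroup E] [NormedSpace ℝ E] [MeasureSpace E] {M : Type}
  [TopologicalSpace M] [ChartedSpace E M] [IsManifold 𝓘(ℝ, E) ∞ M] [MeasurableSpace M] {n : ℕ}

/-- `h_L < h_top`, and `g` is not locally symmetric. -/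
def EntropyGap (b : Fin n → E) (g : RMetric E M) : Prop :=
  hLiou b g < hTop g ∧ ¬ LocSymmetric g

/-- The comparison of the entropies of `g₁` by means of the Liouville entropy of `g₀`, the mean
`g₁`-length of the `g₀`-unit vectors and a number `ρ` (the mean of `-Ric(v,v)` for `g₁`); the
Liouville entropy of `g₀` is finite, and at least `(n - 1) a` if `K ≤ -a²` for `g₀`. -/
def RicciCase (b : Fin n → E) (g₀ g₁ : RMetric E M) (ρ : ℝ) : Prop :=
  hLiou b g₀ ≠ ⊤ ∧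
  (∀ a : ℝ, 0 < a → SecLE g₀ (-a ^ 2) → (n - 1) * a ≤ (hLiou b g₀).toReal) ∧
  hLiou b g₀ * hLiou b g₁ ≤
    ENNReal.ofReal (Real.sqrt ((n - 1) * ρ) * meanLen b g₀ g₁) * hTop g₁ ∧
  ((n - 1) * ρ * meanLen b g₀ g₁ ^ 2 < (hLiou b g₀).toReal ^ 2 → EntropyGap b g₁) ∧
  ((n - 1) * ρ * meanSq b g₀ g₁ ≤ (hLiou b g₀).toReal ^ 2 →
    (hLiou b g₁ = hTop g₁ ↔ LocSymmetric g₁) ∧
    (hLiou b g₁ = hTop g₁ ↔ IsMul g₀ g₁ (meanSq b g₀ g₁) ∧
      ∃ κ : ℝ, 0 < κ ∧ ConstCurvature g₁ κ))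

/-- The integral of `e^{k u}` over `M` with respect to the volume of `g`. -/
def expInt (b : Fin n → E) (g : RMetric E M) (u : M → ℝ) (k : ℝ) : ℝ :=
  ∫ x, Real.exp (k * u x) ∂(vol b g)

/-- The comparison of the entropies of `g₁` by means of a metric `g₀` with `-c² ≤ K ≤ -a²`, and the
case of conformal metrics `g₁ = e^{2u} g₀`. -/
def PinchedCase (b : Fin n → E) (g₀ g₁ : RMetric E M) : Prop :=
  ∀ a c : ℝ, 0 < a → 0 < c → SecLE g₀ (-a ^ 2) → SecGE g₀ (-c ^ 2) →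
    hLiou b g₁ ≤ ENNReal.ofReal (meanLen b g₀ g₁ * meanLen b g₁ g₀ * (c / a)) * hTop g₁ ∧
    (meanLen b g₀ g₁ * meanLen b g₁ g₀ < a / c → EntropyGap b g₁) ∧
    ∀ u : M → ℝ, Continuous u → IsConf g₀ g₁ u →
      c * (expInt b g₀ u 1 * expInt b g₀ u (n - 1)) <
        a * (expInt b g₀ u 0 * expInt b g₀ u n) → EntropyGap b g₁

end

/-- `ρ(g) = -∫ Ric(v,v) dm_L(v)`, minus the average of the Ricci curvature over the unit vectors. -/
def negRic {n : ℕ} {M : Type} [TopologicalSpace M] [ChartedSpace (EV n) M]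
    [IsManifold 𝓘(ℝ, EV n) ∞ M] [MeasurableSpace M] (g : RMetric (EV n) M) : ℝ :=
  -∫ p, ricUT g p ∂(liou (stdB n) g)

end Vale.Agent.P207F
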